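import Vale.Agent.P174.TDefs

/-!
# P174 [AB]: torsion-free abelian groups have the strong form
-/

namespace Vale.Agent.P174

namespace Abel

section loc

variable {V : Type} [AddCommGroup V] [Module ℚ V]

lemma locInd_vec : LocInd (Multiplicative V) := by
  intro S hS hne
  obtain ⟨s, hs, hs1⟩ : ∃ s ∈ S, s ≠ 1 := by
    by_contra hcon
    push Not at hcon
    exact hne ((Subgroup.eq_bot_iff_forall S).2 hcon)
  have hfg : Module.Finite ℤ (Additive S) := by
    have h1 : Group.FG S := (Group.fg_iff_subgroup_fg S).2 hS
    have h2 : AddGroup.FG (Additive S) := inferInstance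
    exact Module.Finite.iff_addGroup_fg.mpr h2
  have hV : IsAddTorsionFree V := .of_module_rat V
  have htf : Module.IsTorsionFree ℤ (Additive S) := by
    let f : Additive S →+ V :=
      { toFun := fun a => Multiplicative.toAdd (a.toMul : Multiplicative V)
        map_zero' := rfl
        map_add' := fun a b => rfl }
    have hf : Function.Injective f := fun a b h => by
      have h1 : ((a.toMul : S) : Multiplicative V) = (b.toMul : S) := h
      exact Additive.toMul.injective (Subtype.ext h1)
    exact hf.moduleIsTorsionFree f (fun k a => map_zsmul f k a)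
  have hfree : Module.Free ℤ (Additive S) := inferInstance
  let b := Module.Free.chooseBasis ℤ (Additive S)
  let x : Additive S := Additive.ofMul ⟨s, hs⟩
  have hx : x ≠ 0 := by
    intro h
    apply hs1
    have : (⟨s, hs⟩ : S) = 1 := h
    exact congrArg Subtype.val this
  obtain ⟨i, hi⟩ : ∃ i, b.repr x i ≠ 0 := by
    by_contra hcon
    push Not at hcon
    apply hx
    apply b.repr.injective
    ext i
    rw [hcon i, map_zero]
    rfl
  refine ⟨AddMonoidHom.toMultiplicativeRight ((b.coord i).toAddMonoidHom), ?_⟩
  intro h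
  apply hi
  exact DFunLike.congr_fun h (⟨s, hs⟩ : S)

end loc

section eval

variable {Q U : Type} [Group Q] {V : Type} [AddCommGroup V]

/-- the part of the unknowns -/
noncomputable def xpart (x : U → V) : (U →₀ ℤ) →+ V :=
  Finsupp.liftAddHom fun u => (smulAddHom ℤ V).flip (x u)

lemma xpart_single (x : U → V) (u : U) (k : ℤ) : xpart x (Finsupp.single u k) = k • x u := by
  simp [xpart]

lemma evalAt_eq (i : Q →* Multiplicative V) (x : U → V) (w : Monoid.Coprod Q (FreeGroup U)) :
    evalAt i (fun u => Multiplicative.ofAdd (x u)) w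
      = Monoid.Coprod.lift i 1 w * Multiplicative.ofAdd (xpart x (expVec w)) := by
  have h : evalAt i (fun u => Multiplicative.ofAdd (x u))
      = (Monoid.Coprod.lift i 1) * (AddMonoidHom.toMultiplicative (xpart x)).comp (expHom Q U) := by
    apply Monoid.Coprod.hom_ext
    · ext q
      simp [evalAt, expHom]
    · ext u
      simp [evalAt, expHom, xpart_single]
  rw [h]
  rfl

end eval

section solve

variable {V : Type} [AddCommGroup V] [Module ℚ V] {E U : Type}

lemma xpart_cast (φ : (U →₀ ℚ) →ₗ[ℚ] V) (v : U →₀ ℤ) :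
    xpart (fun u => φ (Finsupp.single u 1)) v
      = φ (v.mapRange (Int.cast : ℤ → ℚ) (by simp)) := by
  induction v using Finsupp.induction_linear with
  | zero => simp
  | add f g hf hg =>
    rw [map_add, hf, hg, ← map_add]
    congr 1
    ext u
    simp
  | single u k =>
    rw [xpart_single, Finsupp.mapRange_single, ← Int.cast_smul_eq_zsmul ℚ, ← map_smul]
    simp

lemma exists_solution (r : E → (U →₀ ℤ))
    (hr : LinearIndependent ℚ fun (e : E) (u : U) => (r e u : ℚ)) (b : E → V) :
    ∃ x : U → V, ∀ e, xpart x (r e) = b e := by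
  have h1 : LinearIndependent ℚ
      (fun e => (r e).mapRange (Int.cast : ℤ → ℚ) (by simp)) := by
    apply LinearIndependent.of_comp (Finsupp.lcoeFun (R := ℚ) (M := ℚ) (α := U))
    have e : (⇑(Finsupp.lcoeFun (R := ℚ) (M := ℚ) (α := U)) ∘
        fun e => (r e).mapRange (Int.cast : ℤ → ℚ) (by simp)) = fun e u => ((r e u : ℤ) : ℚ) := by
      funext e u
      rfl
    rw [e]
    exact hr
  obtain ⟨g, hg⟩ := LinearMap.exists_leftInverse_of_injective
    (Finsupp.linearCombination ℚ (fun e => (r e).mapRange (Int.cast : ℤ → ℚ) (by simp)))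
    (LinearMap.ker_eq_bot.mpr h1)
  let φ : (U →₀ ℚ) →ₗ[ℚ] V := (Finsupp.linearCombination ℚ b).comp g
  refine ⟨fun u => φ (Finsupp.single u 1), fun e => ?_⟩
  rw [xpart_cast φ (r e)]
  have h2 := DFunLike.congr_fun hg (Finsupp.single e (1 : ℚ))
  simp only [LinearMap.comp_apply, Finsupp.linearCombination_single, one_smul,
    LinearMap.id_apply] at h2
  simp only [φ, LinearMap.comp_apply]
  rw [h2]
  simp

end solve

end Abel

open Abel in
/-- [AB] Abel.lean -/
theorem strong_abelian {Q : Type} [Group Q] (hc : ∀ a b : Q, a * b = b * a)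
    (ht : ∀ (a : Q) (k : ℕ), k ≠ 0 → a ^ k = 1 → a = 1) : Strong Q := by
  intro E U w hw
  let _ : CommGroup Q := { (inferInstance : Group Q) with mul_comm := hc }
  have htf : IsAddTorsionFree (Additive Q) := by
    constructor
    intro k hk a b hab
    have h1 : (a.toMul) ^ k = (b.toMul) ^ k := hab
    have h2 : (a.toMul * (b.toMul)⁻¹) ^ k = 1 := by
      rw [mul_pow, inv_pow, h1, mul_inv_cancel]
    have h3 := ht _ k hk h2
    exact Additive.toMul.injective (mul_inv_eq_one.mp h3)
  let V := DivisibleHull (Additive Q)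
  let i : Q →* Multiplicative V :=
    AddMonoidHom.toMultiplicativeRight (DivisibleHull.coeAddMonoidHom (Additive Q))
  obtain ⟨x, hx⟩ := exists_solution (V := V) (fun e => expVec (w e)) hw
    (fun e => - Multiplicative.toAdd (Monoid.Coprod.lift i 1 (w e)))
  refine ⟨Multiplicative V, inferInstance, i, fun u => Multiplicative.ofAdd (x u), ?_,
    locInd_vec, ?_⟩
  · intro a b hab
    exact DivisibleHull.coe_injective (M := Additive Q) hab
  · intro e
    rw [evalAt_eq, hx e, ofAdd_neg, ofAdd_toAdd]
    exact mul_inv_cancel _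

end Vale.Agent.P174
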