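import Vale.Agent.P174.Defs

/-!
# P174: basic facts on solvability; compactness
-/

namespace Vale.Agent.P174

universe u v

section basic

variable {G : Type u} [Group G] {I : Type v}

theorem Sol.mono {W W' : Set (Monoid.Coprod G (FreeGroup I))} (h : Sol W') (hW : W ⊆ W') :
    Sol W := fun g hg => h g (Subgroup.normalClosure_mono hW hg)

/-- a homomorphism which is injective on `G` and kills `W` shows `Sol W` -/
theorem sol_of_hom {W : Set (Monoid.Coprod G (FreeGroup I))} {H : Type*} [Group H]
    (f : Monoid.Coprod G (FreeGroup I) →* H)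
    (hinj : ∀ g : G, f (Monoid.Coprod.inl g) = 1 → g = 1) (hW : ∀ x ∈ W, f x = 1) : Sol W := by
  intro g hg
  have hker : Subgroup.normalClosure W ≤ f.ker :=
    Subgroup.normalClosure_le_normal fun x hx => hW x hx
  exact hinj g (hker hg)

theorem solvableOver_iff_sol {G : Type u} [Group G] {m n : ℕ}
    (w : Fin m → Monoid.Coprod G (FreeGroup (Fin n))) : SolvableOver w ↔ Sol (Set.range w) := by
  constructor
  · rintro ⟨H, hH, φ, h, hφ, hw⟩
    refine sol_of_hom (Monoid.Coprod.lift φ (FreeGroup.lift h)) ?_ ?_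
    · intro g hg
      rw [Monoid.Coprod.lift_apply_inl] at hg
      exact (injective_iff_map_eq_one φ).1 hφ g hg
    · rintro _ ⟨i, rfl⟩
      exact hw i
  · intro hs
    let ρ := QuotientGroup.mk' (Subgroup.normalClosure (Set.range w))
    refine ⟨Monoid.Coprod G (FreeGroup (Fin n)) ⧸ Subgroup.normalClosure (Set.range w),
      inferInstance, ρ.comp Monoid.Coprod.inl,
      fun j => ρ (Monoid.Coprod.inr (FreeGroup.of j)), ?_, ?_⟩
    · rw [injective_iff_map_eq_one]
      intro g hg
      apply hs g
      rw [← QuotientGroup.eq_one_iff]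
      exact hg
    · intro i
      have : Monoid.Coprod.lift (ρ.comp Monoid.Coprod.inl)
          (FreeGroup.lift fun j => ρ (Monoid.Coprod.inr (FreeGroup.of j))) = ρ := by
        apply Monoid.Coprod.hom_ext
        · ext g; simp
        · ext j; simp
      rw [this]
      show QuotientGroup.mk' _ (w i) = 1
      rw [QuotientGroup.mk'_apply, QuotientGroup.eq_one_iff]
      exact Subgroup.subset_normalClosure ⟨i, rfl⟩

/-- compactness -/
theorem sol_of_finite (W : Set (Monoid.Coprod G (FreeGroup I)))
    (h : ∀ W₀ ⊆ W, W₀.Finite → Sol W₀) : Sol W := by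
  have key : ∀ x ∈ Subgroup.normalClosure W,
      ∃ W₀ ⊆ W, W₀.Finite ∧ x ∈ Subgroup.normalClosure W₀ := by
    intro x hx
    unfold Subgroup.normalClosure at hx
    induction hx using Subgroup.closure_induction with
    | mem y hy =>
      obtain ⟨a, ha, hay⟩ := Group.mem_conjugatesOfSet_iff.1 hy
      refine ⟨{a}, by simpa using ha, Set.finite_singleton a, ?_⟩
      exact Subgroup.subset_closure (Group.mem_conjugatesOfSet_iff.2 ⟨a, rfl, hay⟩)
    | one => exact ⟨∅, Set.empty_subset _, Set.finite_empty, one_mem _⟩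
    | mul a b _ _ ha hb =>
      obtain ⟨A, hA, hAf, haA⟩ := ha
      obtain ⟨B, hB, hBf, hbB⟩ := hb
      exact ⟨A ∪ B, Set.union_subset hA hB, hAf.union hBf,
        mul_mem (Subgroup.normalClosure_mono Set.subset_union_left haA)
          (Subgroup.normalClosure_mono Set.subset_union_right hbB)⟩
    | inv a _ ha =>
      obtain ⟨A, hA, hAf, haA⟩ := ha
      exact ⟨A, hA, hAf, inv_mem haA⟩
  intro g hg
  obtain ⟨W₀, hW₀, hf, hg₀⟩ := key _ hg
  exact h W₀ hW₀ hf g hg₀

end basic

end Vale.Agent.P174
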