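import Vale.Agent.P174.Defs

/-!
# P174: classes of quotient groups
-/

namespace Vale.Agent.P174

universe u

/-- Every finitely generated subgroup is residually a finite `p`-group. -/
def LocallyResP (p : ℕ) (Q : Type u) [Group Q] : Prop :=
  ∀ S : Subgroup Q, S.FG → ResP p S

/-- Every finitely generated subgroup is residually a finite `p`-group for infinitely many
primes `p`. -/
def LocallyResMany (Q : Type u) [Group Q] : Prop :=
  ∀ S : Subgroup Q, S.FG → ∀ B : ℕ, ∃ p : ℕ, B < p ∧ p.Prime ∧ ResP p S

/-- Every nontrivial subgroup has a nontrivial homomorphism to the additive group of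
rationals. -/
def SubgroupsIndicable (Q : Type u) [Group Q] : Prop :=
  ∀ K : Subgroup Q, K ≠ ⊥ → ∃ f : K →* Multiplicative ℚ, f ≠ 1

end Vale.Agent.P174
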