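import Mathlib

/-!
# P174: systems of equations over groups, definitions

`expVec w` is the vector of exponent sums of `w` in `G * F(I)`; `Sol W` says that `G` embeds in
the quotient of `G * F(I)` by the normal closure of `W`.
-/

namespace Vale.Agent.P174

universe u v

/-- The homomorphism from `G * F(I)` to the free abelian group on `I` which kills `G` and sends
the unknown `j` to the basis vector of `j`. -/
noncomputable def expHom (G : Type u) [Group G] (I : Type v) :
    Monoid.Coprod G (FreeGroup I) →* Multiplicative (I →₀ ℤ) :=
  Monoid.Coprod.lift 1 (FreeGroup.lift fun j => Multiplicative.ofAdd (Finsupp.single j 1))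

/-- The vector of exponent sums of an element of `G * F(I)`. -/
noncomputable def expVec {G : Type u} [Group G] {I : Type v}
    (w : Monoid.Coprod G (FreeGroup I)) : I →₀ ℤ :=
  Multiplicative.toAdd (expHom G I w)

/-- The exponent-sum matrix of a finite system of equations over `G`. -/
noncomputable def expMatrix {G : Type u} [Group G] {m n : ℕ}
    (w : Fin m → Monoid.Coprod G (FreeGroup (Fin n))) : Matrix (Fin m) (Fin n) ℤ :=
  Matrix.of fun i j => expVec (w i) j

/-- The finite system `w = 1` is solvable over `G`: it has a solution in a group containing `G`. -/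
def SolvableOver {G : Type u} [Group G] {m n : ℕ}
    (w : Fin m → Monoid.Coprod G (FreeGroup (Fin n))) : Prop :=
  ∃ (H : Type u) (_ : Group H) (φ : G →* H) (h : Fin n → H), Function.Injective φ ∧
    ∀ i, Monoid.Coprod.lift φ (FreeGroup.lift h) (w i) = 1

/-- Howie's conjecture for the single group `G`: every finite system over `G` whose exponent-sum
matrix has rank over `ℚ` equal to the number of equations is solvable over `G`. -/
def Howie (G : Type u) [Group G] : Prop :=
  ∀ (m n : ℕ) (w : Fin m → Monoid.Coprod G (FreeGroup (Fin n))),
    ((expMatrix w).map (Int.cast : ℤ → ℚ)).rank = m → SolvableOver w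

/-- Howie's conjecture for the single group `G` and the systems which are nonsingular modulo `p`. -/
def HowieMod (p : ℕ) (G : Type u) [Group G] : Prop :=
  ∀ (m n : ℕ) (w : Fin m → Monoid.Coprod G (FreeGroup (Fin n))),
    ((expMatrix w).map (Int.cast : ℤ → ZMod p)).rank = m → SolvableOver w

/-- `P` is residually a finite `p`-group. -/
def ResP (p : ℕ) (P : Type u) [Group P] : Prop :=
  ∀ s : P, s ≠ 1 → ∃ (F : Type u) (_ : Group F) (_ : Finite F) (_ : IsPGroup p F) (f : P →* F),
    f s ≠ 1

/-- The system `W` (any set of equations, any set of unknowns) is solvable over `G`, in the form: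
no nontrivial element of `G` lies in the normal closure of `W`. -/
def Sol {G : Type u} [Group G] {I : Type v} (W : Set (Monoid.Coprod G (FreeGroup I))) : Prop :=
  ∀ g : G, (Monoid.Coprod.inl g : Monoid.Coprod G (FreeGroup I)) ∈ Subgroup.normalClosure W →
    g = 1

section basic

variable {G : Type u} [Group G] {I : Type v}

@[simp] lemma expVec_one : expVec (1 : Monoid.Coprod G (FreeGroup I)) = 0 := by
  simp [expVec]

@[simp] lemma expVec_mul (a b : Monoid.Coprod G (FreeGroup I)) :
    expVec (a * b) = expVec a + expVec b := by
  simp [expVec]

@[simp] lemma expVec_inv (a : Monoid.Coprod G (FreeGroup I)) : expVec a⁻¹ = -expVec a := by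
  simp [expVec]

@[simp] lemma expVec_inl (g : G) :
    expVec (Monoid.Coprod.inl g : Monoid.Coprod G (FreeGroup I)) = 0 := by
  simp [expVec, expHom]

@[simp] lemma expVec_inr_of (j : I) :
    expVec (Monoid.Coprod.inr (FreeGroup.of j) : Monoid.Coprod G (FreeGroup I))
      = Finsupp.single j 1 := by
  simp [expVec, expHom]

end basic

end Vale.Agent.P174
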