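import Vale.Agent.P174.Pgrp

/-!
# P174 [G]: ranks of integer matrices modulo primes
-/

namespace Vale.Agent.P174

universe u

/-- linear independence of rows and rank -/
theorem rank_eq_iff {K : Type u} [Field K] {m n : ℕ} (A : Matrix (Fin m) (Fin n) K) :
    A.rank = m ↔ LinearIndependent K (fun i => A i) := by
  rw [linearIndependent_iff_card_eq_finrank_span, Matrix.rank_eq_finrank_span_row,
    Fintype.card_fin]
  exact eq_comm

namespace Gram

/-- a product with a nonzero determinant forces full rank -/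
lemma rank_eq_of_det {K : Type u} [Field K] {m n : ℕ} (A : Matrix (Fin m) (Fin n) K)
    (C : Matrix (Fin n) (Fin m) K) (h : (A * C).det ≠ 0) : A.rank = m := by
  have h1 : (A * C).rank = m := by
    have := Matrix.rank_of_isUnit (A * C) ((Matrix.isUnit_iff_isUnit_det _).mpr h.isUnit)
    simpa using this
  have h2 := Matrix.rank_mul_le_left A C
  have h3 := A.rank_le_height
  omega

end Gram

open Gram

theorem exists_bound {m n : ℕ} (A : Matrix (Fin m) (Fin n) ℤ)
    (hA : (A.map (Int.cast : ℤ → ℚ)).rank = m) :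
    ∃ B : ℕ, ∀ p : ℕ, p.Prime → B < p → (A.map (Int.cast : ℤ → ZMod p)).rank = m := by
  have hd : (A * A.transpose).det ≠ 0 := by
    intro h0
    have h1 : ((A.map (Int.cast : ℤ → ℚ)) * (A.map (Int.cast : ℤ → ℚ)).transpose).rank = m := by
      rw [Matrix.rank_self_mul_transpose, hA]
    have h2 : IsUnit ((A.map (Int.cast : ℤ → ℚ)) * (A.map (Int.cast : ℤ → ℚ)).transpose) := by
      rw [← Matrix.linearIndependent_rows_iff_isUnit]
      exact (rank_eq_iff _).mp h1
    have h3 := (Matrix.isUnit_iff_isUnit_det _).mp h2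
    have h4 : ((A.map (Int.cast : ℤ → ℚ)) * (A.map (Int.cast : ℤ → ℚ)).transpose)
        = (A * A.transpose).map (Int.castRingHom ℚ) := by
      rw [Matrix.map_mul, Matrix.transpose_map]
      rfl
    rw [h4, ← RingHom.mapMatrix_apply, ← RingHom.map_det, h0, map_zero] at h3
    exact h3.ne_zero rfl
  refine ⟨(A * A.transpose).det.natAbs, fun p hp hB => ?_⟩
  have : Fact p.Prime := ⟨hp⟩
  apply rank_eq_of_det _ (A.map (Int.cast : ℤ → ZMod p)).transpose
  have h4 : ((A.map (Int.cast : ℤ → ZMod p)) * (A.map (Int.cast : ℤ → ZMod p)).transpose)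
      = (A * A.transpose).map (Int.castRingHom (ZMod p)) := by
    rw [Matrix.map_mul, Matrix.transpose_map]
    rfl
  rw [h4, ← RingHom.mapMatrix_apply, ← RingHom.map_det]
  intro h
  have h5 : (((A * A.transpose).det : ℤ) : ZMod p) = 0 := h
  rw [ZMod.intCast_zmod_eq_zero_iff_dvd] at h5
  exact hd (Int.eq_zero_of_abs_lt_dvd h5 (by
    rw [Int.abs_eq_natAbs]; exact_mod_cast hB))

theorem rank_rat_of_mod {m n p : ℕ} [Fact p.Prime] (A : Matrix (Fin m) (Fin n) ℤ)
    (hA : (A.map (Int.cast : ℤ → ZMod p)).rank = m) : (A.map (Int.cast : ℤ → ℚ)).rank = m := by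
  have hs : Function.Surjective (A.map (Int.cast : ℤ → ZMod p)).mulVec := fun b =>
    Pgrp.exists_mulVec _ hA b
  obtain ⟨C, hC⟩ := Matrix.mulVec_surjective_iff_exists_right_inverse.mp hs
  let C' : Matrix (Fin n) (Fin m) ℤ := C.map fun x => (x.val : ℤ)
  have hC' : C'.map (Int.castRingHom (ZMod p)) = C := by
    ext i j
    simp [C']
  have h1 : (A * C').map (Int.castRingHom (ZMod p)) = 1 := by
    rw [Matrix.map_mul, hC']
    exact hC
  have h2 : (A * C').det ≠ 0 := by
    intro h0
    have h3 := congrArg Matrix.det h1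
    rw [← RingHom.mapMatrix_apply, ← RingHom.map_det, h0, map_zero, Matrix.det_one] at h3
    exact zero_ne_one h3
  apply rank_eq_of_det _ (C'.map (Int.castRingHom ℚ))
  have h4 : (A.map (Int.cast : ℤ → ℚ)) * C'.map (Int.castRingHom ℚ)
      = (A * C').map (Int.castRingHom ℚ) := by
    rw [Matrix.map_mul]
    rfl
  rw [h4, ← RingHom.mapMatrix_apply, ← RingHom.map_det]
  simpa using h2

end Vale.Agent.P174
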