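import Vale.Agent.P174.Basic
import Vale.Agent.P174.Gram

/-!
# P174: finitely many equations in arbitrary unknowns
-/

namespace Vale.Agent.P174

universe u v

namespace Support

open Monoid.Coprod

variable {N : Type u} [Group N] {I : Type v}

/-- the homomorphism induced by a map of unknowns -/
noncomputable def mapE {J : Type*} (e : J → I) :
    Monoid.Coprod N (FreeGroup J) →* Monoid.Coprod N (FreeGroup I) :=
  Monoid.Coprod.map (MonoidHom.id N) (FreeGroup.map e)

lemma mapE_inl {J : Type*} (e : J → I) (g : N) :
    mapE (N := N) e (inl g) = inl g := by simp [mapE]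

lemma mapE_inr {J : Type*} (e : J → I) (j : J) :
    mapE (N := N) e (inr (FreeGroup.of j)) = inr (FreeGroup.of (e j)) := by simp [mapE]

lemma mapE_comp {J K : Type*} (e : J → I) (f : K → J) :
    (mapE (N := N) e).comp (mapE f) = mapE (e ∘ f) := by
  apply Monoid.Coprod.hom_ext
  · ext g; simp [mapE_inl]
  · ext j; simp [mapE_inr]

lemma mem_range (x : Monoid.Coprod N (FreeGroup I)) :
    ∃ J : Finset I, x ∈ (mapE (N := N) (Subtype.val : J → I)).range := by
  classical
  have mono : ∀ {J J' : Finset I}, J ⊆ J' →
      (mapE (N := N) (Subtype.val : J → I)).range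
        ≤ (mapE (N := N) (Subtype.val : J' → I)).range := by
    intro J J' h
    rintro _ ⟨y, rfl⟩
    refine ⟨mapE (fun j : J => (⟨j.1, h j.2⟩ : J')) y, ?_⟩
    have := DFunLike.congr_fun (mapE_comp (N := N) (Subtype.val : J' → I)
      (fun j : J => (⟨j.1, h j.2⟩ : J'))) y
    exact this
  have hmul : ∀ a b : Monoid.Coprod N (FreeGroup I),
      (∃ J : Finset I, a ∈ (mapE (N := N) (Subtype.val : J → I)).range) →
      (∃ J : Finset I, b ∈ (mapE (N := N) (Subtype.val : J → I)).range) →
      ∃ J : Finset I, a * b ∈ (mapE (N := N) (Subtype.val : J → I)).range := by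
    rintro a b ⟨A, hA⟩ ⟨B, hB⟩
    exact ⟨A ∪ B, mul_mem (mono Finset.subset_union_left hA) (mono Finset.subset_union_right hB)⟩
  induction x using Monoid.Coprod.induction_on with
  | inl g => exact ⟨∅, inl g, mapE_inl _ g⟩
  | inr x =>
    induction x using FreeGroup.induction_on with
    | C1 => exact ⟨∅, by rw [map_one]; exact one_mem _⟩
    | of j => exact ⟨{j}, inr (FreeGroup.of ⟨j, by simp⟩), mapE_inr _ _⟩
    | inv_of j hj =>
      obtain ⟨J, hJ⟩ := hj
      exact ⟨J, by rw [map_inv]; exact inv_mem hJ⟩
    | mul x y hx hy =>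
      rw [map_mul]
      exact hmul _ _ hx hy
  | mul x y hx hy => exact hmul x y hx hy

lemma exists_index {m : ℕ} (w : Fin m → Monoid.Coprod N (FreeGroup I)) :
    ∃ (n : ℕ) (e : Fin n → I), Function.Injective e ∧
      ∀ i, w i ∈ (mapE (N := N) e).range := by
  classical
  choose J hJ using fun i => mem_range (w i)
  let K : Finset I := Finset.univ.biUnion J
  refine ⟨K.card, fun k => (K.equivFin.symm k).1, ?_, ?_⟩
  · intro a b hab
    exact K.equivFin.symm.injective (Subtype.ext hab)
  · intro i
    obtain ⟨y, hy⟩ := hJ i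
    have hsub : J i ⊆ K := Finset.subset_biUnion_of_mem J (Finset.mem_univ i)
    refine ⟨mapE (fun j : J i => K.equivFin ⟨j.1, hsub j.2⟩) y, ?_⟩
    have := DFunLike.congr_fun (mapE_comp (N := N) (fun k => (K.equivFin.symm k).1)
      (fun j : J i => K.equivFin ⟨j.1, hsub j.2⟩)) y
    rw [← hy]
    refine this.trans ?_
    have he : ((fun k => (K.equivFin.symm k).1) ∘ fun j : J i => K.equivFin ⟨j.1, hsub j.2⟩)
        = (Subtype.val : J i → I) := by
      funext j
      simp
    rw [he]

lemma expVec_mapE {J : Type*} (e : J → I) (x : Monoid.Coprod N (FreeGroup J)) :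
    expVec (mapE (N := N) e x) = Finsupp.mapDomain e (expVec x) := by
  have h : (expHom N I).comp (mapE e)
      = (AddMonoidHom.toMultiplicative (Finsupp.mapDomain.addMonoidHom (M := ℤ) e)).comp
        (expHom N J) := by
    apply Monoid.Coprod.hom_ext
    · ext g
      simp [mapE_inl, expHom]
    · apply FreeGroup.ext_hom
      intro j
      simp [mapE_inr, expHom]
  have h2 := DFunLike.congr_fun h x
  have h3 := congrArg Multiplicative.toAdd h2
  exact h3

/-- reduction to finitely many unknowns -/
theorem exists_fin {m : ℕ} (w : Fin m → Monoid.Coprod N (FreeGroup I)) :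
    ∃ (n : ℕ) (e : Fin n → I) (w' : Fin m → Monoid.Coprod N (FreeGroup (Fin n))),
      Function.Injective e ∧ (∀ i, expVec (w i) = Finsupp.mapDomain e (expVec (w' i))) ∧
      (Sol (Set.range w') → Sol (Set.range w)) := by
  classical
  obtain ⟨n, e, he, hw⟩ := exists_index w
  choose w' hw' using hw
  refine ⟨n, e, w', he, ?_, ?_⟩
  · intro i
    rw [← hw' i, expVec_mapE]
  · intro hs
    let ρ : Monoid.Coprod N (FreeGroup I) →* Monoid.Coprod N (FreeGroup (Fin n)) :=
      Monoid.Coprod.lift inl (FreeGroup.lift fun i =>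
        if h : ∃ k, e k = i then inr (FreeGroup.of h.choose) else 1)
    have hρ : ρ.comp (mapE e) = MonoidHom.id _ := by
      apply Monoid.Coprod.hom_ext
      · ext g; simp [ρ, mapE_inl]
      · apply FreeGroup.ext_hom
        intro j
        have hex : ∃ k, e k = e j := ⟨j, rfl⟩
        have hch : hex.choose = j := he hex.choose_spec
        simp only [MonoidHom.comp_apply, mapE_inr, ρ, Monoid.Coprod.lift_apply_inr,
          FreeGroup.lift_apply_of, MonoidHom.id_apply]
        rw [dif_pos hex, hch]
    let f := (QuotientGroup.mk' (Subgroup.normalClosure (Set.range w'))).comp ρ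
    apply sol_of_hom f
    · intro g hg
      apply hs g
      rw [← QuotientGroup.eq_one_iff]
      have : ρ (inl g) = inl g := by simp [ρ]
      simpa [f, this] using hg
    · rintro _ ⟨i, rfl⟩
      have h1 : ρ (w i) = w' i := by
        rw [← hw' i]
        exact DFunLike.congr_fun hρ (w' i)
      show QuotientGroup.mk' _ (ρ (w i)) = 1
      rw [h1, QuotientGroup.mk'_apply, QuotientGroup.eq_one_iff]
      exact Subgroup.subset_normalClosure ⟨i, rfl⟩

/-- the rows over a field: independence descends to the reduced system -/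
theorem indep_of_mapDomain {K : Type*} [Field K] {m n : ℕ}
    (w : Fin m → Monoid.Coprod N (FreeGroup I))
    (w' : Fin m → Monoid.Coprod N (FreeGroup (Fin n))) (e : Fin n → I)
    (hE : ∀ i, expVec (w i) = Finsupp.mapDomain e (expVec (w' i)))
    (hw : LinearIndependent K
      (fun k => (expVec (w k)).mapRange (Int.cast : ℤ → K) (by simp))) :
    LinearIndependent K (fun i => ((expMatrix w').map (Int.cast : ℤ → K)) i) := by
  let L : (Fin n → K) →ₗ[K] (I →₀ K) :=
    (Finsupp.lmapDomain K K e).comp (Finsupp.linearEquivFunOnFinite K K (Fin n)).symm.toLinearMap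
  apply LinearIndependent.of_comp L
  have : (L ∘ fun i => ((expMatrix w').map (Int.cast : ℤ → K)) i)
      = (fun k => (expVec (w k)).mapRange (Int.cast : ℤ → K) (by simp)) := by
    funext i
    simp only [Function.comp]
    have h1 : (Finsupp.linearEquivFunOnFinite K K (Fin n)).symm
        (((expMatrix w').map (Int.cast : ℤ → K)) i)
        = (expVec (w' i)).mapRange (Int.cast : ℤ → K) (by simp) := by
      ext j
      simp [expMatrix]
    show Finsupp.mapDomain e ((Finsupp.linearEquivFunOnFinite K K (Fin n)).symm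
        (((expMatrix w').map (Int.cast : ℤ → K)) i)) = _
    rw [h1, Finsupp.mapDomain_mapRange _ _ _ _ (by intro x y; simp), hE]
  rw [this]
  exact hw

end Support

theorem sol_of_howieMod {p : ℕ} [Fact p.Prime] {N : Type u} [Group N] (hN : HowieMod p N)
    {I : Type v} {m : ℕ} (w : Fin m → Monoid.Coprod N (FreeGroup I))
    (hw : LinearIndependent (ZMod p)
      (fun k => (expVec (w k)).mapRange (Int.cast : ℤ → ZMod p) (by simp))) :
    Sol (Set.range w) := by
  obtain ⟨n, e, w', he, hE, hS⟩ := Support.exists_fin w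
  apply hS
  rw [← solvableOver_iff_sol]
  apply hN
  rw [rank_eq_iff]
  exact Support.indep_of_mapDomain w w' e hE hw

theorem sol_of_howie {N : Type u} [Group N] (hN : Howie N)
    {I : Type v} {m : ℕ} (w : Fin m → Monoid.Coprod N (FreeGroup I))
    (hw : LinearIndependent ℚ
      (fun k => (expVec (w k)).mapRange (Int.cast : ℤ → ℚ) (by simp))) :
    Sol (Set.range w) := by
  obtain ⟨n, e, w', he, hE, hS⟩ := Support.exists_fin w
  apply hS
  rw [← solvableOver_iff_sol]
  apply hN
  rw [rank_eq_iff]
  exact Support.indep_of_mapDomain w w' e hE hw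

/-- compactness: infinitely many equations, nonsingular over `ℚ` -/
theorem sol_of_howie_infinite {N : Type u} [Group N] (hN : Howie N)
    {I : Type v} {K : Type*} (w : K → Monoid.Coprod N (FreeGroup I))
    (hw : LinearIndependent ℚ
      (fun k => (expVec (w k)).mapRange (Int.cast : ℤ → ℚ) (by simp))) :
    Sol (Set.range w) := by
  classical
  apply sol_of_finite
  intro W₀ hW₀ hf
  have : Fintype W₀ := hf.fintype
  choose g hg using fun x : W₀ => hW₀ x.2
  let T : Finset K := Finset.univ.image g
  let v : Fin T.card → Monoid.Coprod N (FreeGroup I) := fun k => w (T.equivFin.symm k).1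
  have hv : Sol (Set.range v) := by
    apply sol_of_howie hN
    exact hw.comp (fun k => (T.equivFin.symm k).1)
      (fun a b hab => T.equivFin.symm.injective (Subtype.ext hab))
  refine hv.mono ?_
  intro x hx
  have hxT : g ⟨x, hx⟩ ∈ T := Finset.mem_image_of_mem g (Finset.mem_univ _)
  refine ⟨T.equivFin ⟨g ⟨x, hx⟩, hxT⟩, ?_⟩
  simp only [v, Equiv.symm_apply_apply]
  exact hg ⟨x, hx⟩

/-- compactness: infinitely many equations, nonsingular modulo `p` -/
theorem sol_of_howieMod_infinite {p : ℕ} [Fact p.Prime] {N : Type u} [Group N]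
    (hN : HowieMod p N)
    {I : Type v} {K : Type*} (w : K → Monoid.Coprod N (FreeGroup I))
    (hw : LinearIndependent (ZMod p)
      (fun k => (expVec (w k)).mapRange (Int.cast : ℤ → ZMod p) (by simp))) :
    Sol (Set.range w) := by
  classical
  apply sol_of_finite
  intro W₀ hW₀ hf
  have : Fintype W₀ := hf.fintype
  choose g hg using fun x : W₀ => hW₀ x.2
  let T : Finset K := Finset.univ.image g
  let v : Fin T.card → Monoid.Coprod N (FreeGroup I) := fun k => w (T.equivFin.symm k).1
  have hv : Sol (Set.range v) := by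
    apply sol_of_howieMod hN
    exact hw.comp (fun k => (T.equivFin.symm k).1)
      (fun a b hab => T.equivFin.symm.injective (Subtype.ext hab))
  refine hv.mono ?_
  intro x hx
  have hxT : g ⟨x, hx⟩ ∈ T := Finset.mem_image_of_mem g (Finset.mem_univ _)
  refine ⟨T.equivFin ⟨g ⟨x, hx⟩, hxT⟩, ?_⟩
  simp only [v, Equiv.symm_apply_apply]
  exact hg ⟨x, hx⟩

end Vale.Agent.P174
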