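import Vale.Agent.P174.TDefs
import Vale.Agent.P174.Support

/-!
# P174: infinite nonsingular systems over a group that satisfies Howie's conjecture
-/

namespace Vale.Agent.P174

/-- An infinite nonsingular system over `N` is solvable over `N`. -/
theorem howie_inf {N : Type} [Group N] (hN : Howie N) (E U : Type)
    (w : E → Monoid.Coprod N (FreeGroup U)) (hw : NonsingQ w) :
    ∃ (M : Type) (_ : Group M) (j : N →* M) (f : U → M),
      Function.Injective j ∧ ∀ e, evalAt j f (w e) = 1 := by
  have hw' : LinearIndependent ℚ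
      (fun k => (expVec (w k)).mapRange (Int.cast : ℤ → ℚ) (by simp)) := by
    unfold NonsingQ at hw
    have e : (fun (e : E) (u : U) => (expVec (w e) u : ℚ)) =
        (Finsupp.lcoeFun (M := ℚ) (R := ℚ) : (U →₀ ℚ) →ₗ[ℚ] (U → ℚ)) ∘
          (fun k => (expVec (w k)).mapRange (Int.cast : ℤ → ℚ) (by simp)) := by
      funext e
      ext u
      rfl
    rw [e] at hw
    exact hw.of_comp _
  have hs := sol_of_howie_infinite hN w hw'
  set W := Subgroup.normalClosure (Set.range w) with hW
  refine ⟨Monoid.Coprod N (FreeGroup U) ⧸ W, inferInstance,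
    (QuotientGroup.mk' W).comp Monoid.Coprod.inl,
    fun u => QuotientGroup.mk' W (Monoid.Coprod.inr (FreeGroup.of u)), ?_, ?_⟩
  · rw [injective_iff_map_eq_one]
    intro g hg
    rw [MonoidHom.comp_apply, QuotientGroup.mk'_apply, QuotientGroup.eq_one_iff] at hg
    exact hs g hg
  · intro e
    have h1 : evalAt ((QuotientGroup.mk' W).comp Monoid.Coprod.inl)
        (fun u => QuotientGroup.mk' W (Monoid.Coprod.inr (FreeGroup.of u))) =
        QuotientGroup.mk' W := by
      unfold evalAt
      apply Monoid.Coprod.hom_ext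
      · rw [Monoid.Coprod.lift_comp_inl]
      · rw [Monoid.Coprod.lift_comp_inr]
        ext u
        simp
    rw [h1, QuotientGroup.mk'_apply, QuotientGroup.eq_one_iff]
    exact Subgroup.subset_normalClosure ⟨e, rfl⟩

end Vale.Agent.P174
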