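import Vale.Agent.P174.Defs

/-!
# P174 [D1]: translates of rows over a finite p-group
-/

namespace Vale.Agent.P174

universe v

namespace Jac1

variable {p : ℕ} [Fact p.Prime] {P : Type v} [Group P] {m n : ℕ}

/-- the translated rows -/
noncomputable def row (r : Fin m → (Fin n × P →₀ ZMod p)) (k : Fin m × P) : Fin n × P →₀ ZMod p :=
  Finsupp.mapDomain (fun x : Fin n × P => (x.1, x.2 * k.2)) (r k.1)

/-- translation of a family of coefficients -/
noncomputable def tr (t : P) (c : Fin m × P →₀ ZMod p) : Fin m × P →₀ ZMod p :=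
  Finsupp.mapDomain (fun k : Fin m × P => (k.1, k.2 * t⁻¹)) c

lemma tr_one (c : Fin m × P →₀ ZMod p) : tr 1 c = c := by
  have : (fun k : Fin m × P => (k.1, k.2 * (1 : P)⁻¹)) = id := by
    funext k; simp
  rw [tr, this, Finsupp.mapDomain_id]

lemma tr_mul (s t : P) (c : Fin m × P →₀ ZMod p) : tr (s * t) c = tr s (tr t c) := by
  rw [tr, tr, tr, ← Finsupp.mapDomain_comp]
  congr 1
  funext k
  simp [mul_assoc]

lemma tr_zero (t : P) : tr t (0 : Fin m × P →₀ ZMod p) = 0 := by
  simp [tr]

lemma lc_tr (r : Fin m → (Fin n × P →₀ ZMod p)) (t : P) (c : Fin m × P →₀ ZMod p) :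
    Finsupp.linearCombination (ZMod p) (row r) (tr t c)
      = Finsupp.mapDomain (fun x : Fin n × P => (x.1, x.2 * t⁻¹))
        (Finsupp.linearCombination (ZMod p) (row r) c) := by
  have h : (row r) ∘ (fun k : Fin m × P => (k.1, k.2 * t⁻¹))
      = (Finsupp.lmapDomain (ZMod p) (ZMod p) (fun x : Fin n × P => (x.1, x.2 * t⁻¹)))
        ∘ (row r) := by
    funext k
    simp only [Function.comp_apply, row, Finsupp.lmapDomain_apply]
    rw [← Finsupp.mapDomain_comp]
    congr 1
    funext x
    simp [mul_assoc]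
  rw [tr, Finsupp.linearCombination_mapDomain, h, ← Finsupp.apply_linearCombination]
  rfl

lemma tr_apply (t : P) (c : Fin m × P →₀ ZMod p) (i : Fin m) (s : P) :
    tr t c (i, s) = c (i, s * t) := by
  have hinj : Function.Injective (fun k : Fin m × P => (k.1, k.2 * t⁻¹)) := by
    rintro ⟨a, b⟩ ⟨a', b'⟩ h
    simp only [Prod.mk.injEq, mul_left_inj] at h
    exact Prod.ext h.1 h.2
  have := Finsupp.mapDomain_apply hinj c (i, s * t)
  simpa [tr] using this

/-- the action of `P` on the relations by translation -/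
@[instance_reducible] noncomputable def act (r : Fin m → (Fin n × P →₀ ZMod p)) :
    MulAction P (LinearMap.ker (Finsupp.linearCombination (ZMod p) (row r))) where
  smul t x := ⟨tr t x.1, by
    rw [LinearMap.mem_ker, lc_tr, (LinearMap.mem_ker.mp x.2), Finsupp.mapDomain_zero]⟩
  one_smul x := Subtype.ext (tr_one x.1)
  mul_smul s t x := Subtype.ext (tr_mul s t x.1)

end Jac1

open Jac1 in
/-- [D1] Jac1.lean: finite p-group -/
theorem indep_translate_finite {p : ℕ} [Fact p.Prime] {P : Type v} [Group P] [Finite P]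
    (hP : IsPGroup p P) {m n : ℕ} (r : Fin m → (Fin n × P →₀ ZMod p))
    (hr : LinearIndependent (ZMod p) (fun i => Finsupp.mapDomain (Prod.fst : Fin n × P → Fin n) (r i)))
    (c : Fin m × P →₀ ZMod p)
    (hc : c.sum (fun k a => a • Finsupp.mapDomain (fun x : Fin n × P => (x.1, x.2 * k.2)) (r k.1)) = 0) :
    c = 0 := by
  classical
  have := Fintype.ofFinite P
  by_contra hne
  let V : Submodule (ZMod p) (Fin m × P →₀ ZMod p) :=
    LinearMap.ker (Finsupp.linearCombination (ZMod p) (row r))
  have hcV : c ∈ V := by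
    rw [LinearMap.mem_ker, Finsupp.linearCombination_apply]
    exact hc
  have : Finite (Fin m × P →₀ ZMod p) := Finite.of_injective _ DFunLike.coe_injective
  have : Finite V := inferInstance
  let act : MulAction P V := act r
  have hfix : ∀ x : V, x ∈ @MulAction.fixedPoints P V _ act ↔ ∀ t, tr t x.1 = x.1 := by
    intro x
    constructor
    · intro h t
      exact congrArg Subtype.val (h t)
    · intro h t
      exact Subtype.ext (h t)
  have hdvd : p ∣ Nat.card V := by
    have h1 : addOrderOf (⟨c, hcV⟩ : V) = p := by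
      apply addOrderOf_eq_prime
      · rw [← Nat.cast_smul_eq_nsmul (ZMod p) p (⟨c, hcV⟩ : V)]
        simp
      · intro h
        exact hne (by simpa using congrArg Subtype.val h)
    have h2 := addOrderOf_dvd_natCard (⟨c, hcV⟩ : V)
    exact (dvd_of_eq h1.symm).trans h2
  have h0 : (0 : V) ∈ @MulAction.fixedPoints P V _ act := by
    rw [hfix]
    intro t
    simpa using tr_zero t
  obtain ⟨b, hb, hb0⟩ := hP.exists_fixed_point_of_prime_dvd_card_of_fixed_point V hdvd h0
  apply hb0
  symm
  -- `b (i, s) = b (i, 1)`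
  have hconst : ∀ (i : Fin m) (s : P), b.1 (i, s) = b.1 (i, 1) := by
    intro i s
    have h1 := (hfix b).mp hb s
    have h2 := tr_apply s b.1 i 1
    rw [h1, one_mul] at h2
    exact h2.symm
  have hrel := LinearMap.mem_ker.mp b.2
  have hbi : ∀ i, b.1 (i, 1) = 0 := by
    have hli := Fintype.linearIndependent_iff.mp hr (fun i => b.1 (i, 1))
    apply hli
    ext j
    have h1 := DFunLike.congr_fun hrel (j, (1 : P))
    rw [Finsupp.linearCombination_apply, Finsupp.sum_fintype _ _ (by simp)] at h1
    simp only [Finsupp.coe_finsetSum, Finset.sum_apply, Finsupp.smul_apply, smul_eq_mul,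
      Finsupp.coe_zero, Pi.zero_apply] at h1
    rw [Fintype.sum_prod_type] at h1
    simp only [Finsupp.coe_finsetSum, Finset.sum_apply, Finsupp.smul_apply, smul_eq_mul,
      Finsupp.coe_zero, Pi.zero_apply]
    rw [← h1]
    refine Finset.sum_congr rfl fun i _ => ?_
    simp only [hconst i _]
    rw [← Finset.mul_sum]
    congr 1
    -- `mapDomain fst (r i) j = ∑ s, row r (i, s) (j, 1)`
    have hrow : ∀ s : P, row r (i, s) (j, 1) = r i (j, s⁻¹) := by
      intro s
      have hinj : Function.Injective (fun x : Fin n × P => (x.1, x.2 * s)) := by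
        rintro ⟨a, b⟩ ⟨a', b'⟩ h
        simp only [Prod.mk.injEq, mul_left_inj] at h
        exact Prod.ext h.1 h.2
      have := Finsupp.mapDomain_apply hinj (r i) (j, s⁻¹)
      simpa [row] using this
    simp only [hrow]
    rw [Finsupp.mapDomain, Finsupp.sum_fintype _ _ (by simp)]
    simp only [Finsupp.coe_finsetSum, Finset.sum_apply]
    rw [Fintype.sum_prod_type]
    rw [Finset.sum_eq_single j]
    · simp only [Finsupp.single_eq_same]
      exact (Equiv.sum_comp (Equiv.inv P) (fun s => r i (j, s))).symm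
    · intro j' _ hj'
      simp [hj']
    · simp
  apply Subtype.ext
  ext ⟨i, s⟩
  rw [hconst i s, hbi i]
  rfl

end Vale.Agent.P174
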