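import Vale.Agent.P174.Jac1

/-!
# P174 [D2]: translates of rows over a residually finite p-group
-/

namespace Vale.Agent.P174

universe v

namespace Jac2

lemma isPGroup_pi {p : ℕ} {T : Type v} [Finite T] (F : T → Type v) [∀ x, Group (F x)]
    (h : ∀ x, IsPGroup p (F x)) : IsPGroup p (∀ x, F x) := by
  classical
  have := Fintype.ofFinite T
  intro g
  choose k hk using fun x => h x (g x)
  refine ⟨∑ x, k x, ?_⟩
  funext x
  rw [Pi.pow_apply, Pi.one_apply]
  obtain ⟨d, hd⟩ : p ^ k x ∣ p ^ ∑ y, k y :=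
    pow_dvd_pow p (Finset.single_le_sum (f := k) (fun _ _ => Nat.zero_le _) (Finset.mem_univ x))
  rw [hd, pow_mul, hk, one_pow]

/-- a residually finite p-group has a finite p-quotient that is injective on a finite set -/
lemma exists_quot {p : ℕ} {P : Type v} [Group P] (hP : ResP p P) (S : Finset P) :
    ∃ (F : Type v) (_ : Group F) (_ : Finite F) (_ : IsPGroup p F) (f : P →* F),
      Set.InjOn f (S : Set P) := by
  classical
  let D : Finset P := (S ×ˢ S).image (fun x => x.1⁻¹ * x.2)
  let T := {x : P // x ∈ D ∧ x ≠ 1}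
  have : Finite T := Set.Finite.subset D.finite_toSet (fun x hx => hx.1)
  choose F hG hF hp f hf using fun x : T => hP x.1 x.2.2
  refine ⟨∀ x, F x, inferInstance, inferInstance, isPGroup_pi F hp,
    MonoidHom.pi f, ?_⟩
  intro s hs t ht hst
  by_contra hne
  have h1 : s⁻¹ * t ≠ 1 := fun h => hne (inv_mul_eq_one.mp h)
  have h2 : s⁻¹ * t ∈ D := Finset.mem_image.mpr ⟨(s, t), Finset.mem_product.mpr ⟨hs, ht⟩, rfl⟩
  apply hf ⟨s⁻¹ * t, h2, h1⟩
  have h3 : f ⟨s⁻¹ * t, h2, h1⟩ s = f ⟨s⁻¹ * t, h2, h1⟩ t := congrFun hst ⟨s⁻¹ * t, h2, h1⟩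
  rw [map_mul, map_inv, h3, inv_mul_cancel]

end Jac2

open Jac2 in
/-- [D2] Jac2.lean: residually finite p-group, from D1 -/
theorem indep_translate {p : ℕ} [Fact p.Prime] {P : Type v} [Group P]
    (hP : ResP p P) {m n : ℕ} (r : Fin m → (Fin n × P →₀ ZMod p))
    (hr : LinearIndependent (ZMod p) (fun i => Finsupp.mapDomain (Prod.fst : Fin n × P → Fin n) (r i))) :
    LinearIndependent (ZMod p) (fun k : Fin m × P =>
      Finsupp.mapDomain (fun x : Fin n × P => (x.1, x.2 * k.2)) (r k.1)) := by
  classical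
  rw [linearIndependent_iff]
  intro c hc
  obtain ⟨F, hG, hFin, hF, f, hf⟩ := exists_quot hP (c.support.image Prod.snd)
  have hinj : Set.InjOn (fun k : Fin m × P => (k.1, f k.2)) (c.support : Set (Fin m × P)) := by
    rintro ⟨a, s⟩ ha ⟨b, t⟩ hb h
    simp only [Prod.mk.injEq] at h
    have := hf (Finset.mem_coe.mpr (Finset.mem_image_of_mem Prod.snd ha))
      (Finset.mem_coe.mpr (Finset.mem_image_of_mem Prod.snd hb)) h.2
    exact Prod.ext h.1 this
  have h0 : Finsupp.mapDomain (fun k : Fin m × P => (k.1, f k.2)) c = 0 := by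
    apply indep_translate_finite hF
      (fun i => Finsupp.mapDomain (fun x : Fin n × P => (x.1, f x.2)) (r i))
    · have e : (fun i => Finsupp.mapDomain (Prod.fst : Fin n × F → Fin n)
          (Finsupp.mapDomain (fun x : Fin n × P => (x.1, f x.2)) (r i)))
          = fun i => Finsupp.mapDomain (Prod.fst : Fin n × P → Fin n) (r i) := by
        funext i
        rw [← Finsupp.mapDomain_comp]
        rfl
      rw [e]
      exact hr
    · rw [← Finsupp.linearCombination_apply, Finsupp.linearCombination_mapDomain]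
      have e : ((fun k : Fin m × F => Finsupp.mapDomain (fun x : Fin n × F => (x.1, x.2 * k.2))
            (Finsupp.mapDomain (fun x : Fin n × P => (x.1, f x.2)) (r k.1)))
          ∘ fun k : Fin m × P => (k.1, f k.2))
          = (Finsupp.lmapDomain (ZMod p) (ZMod p) (fun x : Fin n × P => (x.1, f x.2))) ∘
            (fun k : Fin m × P => Finsupp.mapDomain (fun x : Fin n × P => (x.1, x.2 * k.2))
              (r k.1)) := by
        funext k
        simp only [Function.comp_apply, Finsupp.lmapDomain_apply]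
        rw [← Finsupp.mapDomain_comp, ← Finsupp.mapDomain_comp]
        congr 1
        funext x
        simp
      rw [e, ← Finsupp.apply_linearCombination, hc, map_zero]
  have h1 := Finsupp.mapDomain_injOn (M := ZMod p) (c.support : Set (Fin m × P)) hinj
  have hm1 : c ∈ {w : Fin m × P →₀ ZMod p | (w.support : Set (Fin m × P)) ⊆ c.support} :=
    fun _ h => h
  have hm2 : (0 : Fin m × P →₀ ZMod p) ∈
      {w : Fin m × P →₀ ZMod p | (w.support : Set (Fin m × P)) ⊆ c.support} := by simp
  exact h1 hm1 hm2 (by rw [h0, Finsupp.mapDomain_zero])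

end Vale.Agent.P174
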