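import Vale.Agent.P174.TDefs

/-!
# P174: translates of vectors are linearly independent over locally indicable groups
-/

namespace Vale.Agent.P174

namespace LD

open Polynomial in
theorem eval_one_smul {V W : Type} [AddCommGroup V] [Module ℚ V] [AddCommGroup W] [Module ℚ W]
    (S : V →ₗ[ℚ] V) (p : V →ₗ[ℚ] W) (hp : ∀ v, p (S v) = p v) (q : Polynomial ℚ) (v : V) :
    p (Polynomial.aeval S q v) = q.eval 1 • p v := by
  induction q using Polynomial.induction_on' with
  | add a b ha hb => simp [map_add, ha, hb, add_smul]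
  | monomial n c =>
    have h : ∀ n : ℕ, p ((S ^ n) v) = p v := by
      intro n
      induction n with
      | zero => simp
      | succ n ih => rw [pow_succ']; simp [hp, ih]
    simp [Polynomial.aeval_monomial, h, Algebra.algebraMap_eq_smul_one]

open Polynomial in
theorem poly_indep {V W I : Type} [AddCommGroup V] [Module ℚ V] [AddCommGroup W] [Module ℚ W]
    (S : V →ₗ[ℚ] V) (hS : ∀ v, S v = v → v = 0) (p : V →ₗ[ℚ] W) (hp : ∀ v, p (S v) = p v)
    (b : I → V) (hb : LinearIndependent ℚ (fun i => p (b i))) (s : Finset I) :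
    ∀ (n : ℕ) (P : I → Polynomial ℚ), (∀ i ∈ s, (P i).degree < n) →
      ∑ i ∈ s, Polynomial.aeval S (P i) (b i) = 0 → ∀ i ∈ s, P i = 0 := by
  intro n
  induction n with
  | zero =>
    intro P hP _ i hi
    have := hP i hi
    exact Polynomial.degree_eq_bot.1 (by
      have h0 : (P i).degree < 0 := by simpa using this
      exact Nat.WithBot.lt_zero_iff.1 h0)
  | succ n ih =>
    intro P hP hsum i hi
    have h1 : ∀ i ∈ s, (P i).eval 1 = 0 := by
      have h2 : ∑ i ∈ s, (P i).eval 1 • p (b i) = 0 := by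
        have := congrArg p hsum
        rw [map_sum, map_zero] at this
        rw [← this]
        exact Finset.sum_congr rfl fun i _ => (eval_one_smul S p hp (P i) (b i)).symm
      exact linearIndependent_iff'.1 hb s _ h2
    have h3 : ∀ i ∈ s, P i = (X - C 1) * (P i /ₘ (X - C 1)) := fun i hi =>
      (Polynomial.mul_divByMonic_eq_iff_isRoot.2 (h1 i hi)).symm
    have h4 : ∑ i ∈ s, Polynomial.aeval S (P i /ₘ (X - C 1)) (b i) = 0 := by
      have : S (∑ i ∈ s, Polynomial.aeval S (P i /ₘ (X - C 1)) (b i))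
          = ∑ i ∈ s, Polynomial.aeval S (P i /ₘ (X - C 1)) (b i) := by
        rw [← sub_eq_zero, ← hsum, map_sum, ← Finset.sum_sub_distrib]
        refine Finset.sum_congr rfl fun i hi => ?_
        conv_rhs => rw [h3 i hi]
        simp [sub_mul]
      exact hS _ this
    have h5 : ∀ i ∈ s, (P i /ₘ (X - C 1)).degree < n := by
      intro i hi
      by_cases hz : P i /ₘ (X - C 1) = 0
      · rw [hz]; simp
      have h6 : (P i).degree = 1 + (P i /ₘ (X - C 1)).degree := by
        conv_lhs => rw [h3 i hi]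
        rw [Polynomial.degree_mul, Polynomial.degree_X_sub_C]
      have h7 := hP i hi
      rw [h6, Polynomial.degree_eq_natDegree hz] at h7
      rw [Polynomial.degree_eq_natDegree hz]
      norm_cast at h7 ⊢
      omega
    rw [h3 i hi, ih _ h5 h4 i hi, mul_zero]

theorem int_indep {V W I : Type} [AddCommGroup V] [Module ℚ V] [AddCommGroup W] [Module ℚ W]
    (S : V ≃ₗ[ℚ] V) (hS : ∀ v, S v = v → v = 0) (p : V →ₗ[ℚ] W) (hp : ∀ v, p (S v) = p v)
    (b : I → V) (hb : LinearIndependent ℚ (fun i => p (b i))) :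
    LinearIndependent ℚ (fun x : I × ℤ => (S ^ x.2) (b x.1)) := by
  classical
  rw [linearIndependent_iff']
  intro s c hsum x hx
  obtain ⟨N, hN⟩ : ∃ N : ℕ, ∀ x ∈ s, 0 ≤ x.2 + (N : ℤ) := by
    refine ⟨∑ x ∈ s, x.2.natAbs, fun x hx => ?_⟩
    have := Finset.single_le_sum (f := fun x : I × ℤ => x.2.natAbs) (fun _ _ => Nat.zero_le _) hx
    omega
  set P : I → Polynomial ℚ := fun i =>
    ∑ x ∈ s.filter (fun x => x.1 = i), Polynomial.monomial (x.2 + (N : ℤ)).toNat (c x) with hP
  have key : ∑ i ∈ s.image Prod.fst, Polynomial.aeval (S : V →ₗ[ℚ] V) (P i) (b i) = 0 := by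
    have h1 : ∀ i, Polynomial.aeval (S : V →ₗ[ℚ] V) (P i) (b i)
        = ∑ x ∈ s.filter (fun x => x.1 = i), (S ^ (N : ℤ)) (c x • (S ^ x.2) (b x.1)) := by
      intro i
      rw [hP]
      simp only [map_sum, LinearMap.sum_apply]
      refine Finset.sum_congr rfl fun x hx => ?_
      obtain ⟨hx1, hx2⟩ := Finset.mem_filter.1 hx
      rw [Polynomial.aeval_monomial, ← hx2]
      have h2 : ((S : V →ₗ[ℚ] V) ^ (x.2 + (N : ℤ)).toNat) (b x.1) = (S ^ (x.2 + (N : ℤ))) (b x.1) := by
        have h3 : ∀ (n : ℕ) (v : V), ((S : V →ₗ[ℚ] V) ^ n) v = (S ^ n) v := by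
          intro n v
          induction n generalizing v with
          | zero => simp
          | succ n ih => rw [pow_succ, pow_succ]; simp [ih]
        rw [h3, ← zpow_natCast, Int.toNat_of_nonneg (hN x hx1)]
      rw [map_smul, ← LinearEquiv.mul_apply, ← zpow_add, add_comm (N : ℤ) x.2]
      simp [h2, Algebra.algebraMap_eq_smul_one]
    rw [Finset.sum_congr rfl fun i _ => h1 i]
    have h2 := Finset.sum_fiberwise_of_maps_to (s := s) (t := s.image Prod.fst)
      (g := fun x : I × ℤ => x.1) (fun x hx => Finset.mem_image_of_mem _ hx)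
      (fun x => (S ^ (N : ℤ)) (c x • (S ^ x.2) (b x.1)))
    rw [h2, ← map_sum, hsum, map_zero]
  obtain ⟨n, hn⟩ : ∃ n : ℕ, ∀ i ∈ s.image Prod.fst, (P i).degree < n := by
    refine ⟨∑ i ∈ s.image Prod.fst, ((P i).natDegree + 1), fun i hi => ?_⟩
    refine lt_of_le_of_lt Polynomial.degree_le_natDegree ?_
    have := Finset.single_le_sum (f := fun i : I => (P i).natDegree + 1) (fun _ _ => Nat.zero_le _) hi
    exact_mod_cast this
  have h0 := poly_indep (S : V →ₗ[ℚ] V) hS p hp b hb (s.image Prod.fst) n P hn key x.1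
    (Finset.mem_image_of_mem _ hx)
  have h1 : (P x.1).coeff (x.2 + (N : ℤ)).toNat = c x := by
    rw [hP]
    simp only [Polynomial.finsetSum_coeff, Polynomial.coeff_monomial]
    rw [Finset.sum_eq_single x]
    · simp
    · intro y hy hyx
      obtain ⟨hy1, hy2⟩ := Finset.mem_filter.1 hy
      rw [if_neg]
      intro h
      apply hyx
      have a1 := hN y hy1
      have a2 := hN x hx
      ext
      · exact hy2
      · omega
    · intro h
      exact (h (Finset.mem_filter.2 ⟨hx, rfl⟩)).elim
  rw [← h1, h0, Polynomial.coeff_zero]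

theorem fg_closure_range {H T : Type} [Group H] [Finite T] (g : T → H) :
    (Subgroup.closure (Set.range g)).FG :=
  (Subgroup.fg_iff _).2 ⟨Set.range g, rfl, Set.finite_range g⟩

/-! ### actions -/

section action

variable {H X : Type} [Group H] [MulAction H X]

/-- translation of vectors -/
noncomputable def tr (h : H) : (X →₀ ℚ) →ₗ[ℚ] (X →₀ ℚ) := Finsupp.lmapDomain ℚ ℚ (h • ·)

theorem tr_mul (g h : H) (v : X →₀ ℚ) : tr (g * h) v = tr g (tr h v) := by
  simp only [tr, Finsupp.lmapDomain_apply]
  rw [← Finsupp.mapDomain_comp]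
  congr 1
  funext x
  simp [mul_smul]

theorem tr_one (v : X →₀ ℚ) : tr (1 : H) v = v := by
  simp only [tr, Finsupp.lmapDomain_apply]
  have : ((1 : H) • · : X → X) = id := by funext x; simp
  rw [this, Finsupp.mapDomain_id]

/-- the orbit space of the subgroup `K` -/
abbrev Orb (K : Subgroup H) (X : Type) [MulAction H X] : Type := MulAction.orbitRel.Quotient K X

/-- the orbit of a point -/
def mk (K : Subgroup H) (x : X) : Orb K X := Quotient.mk _ x

theorem mk_eq {K : Subgroup H} {x y : X} : mk K x = mk K y ↔ ∃ k ∈ K, k • y = x := by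
  unfold mk
  rw [Quotient.eq]
  constructor
  · rintro ⟨k, hk⟩
    exact ⟨k.1, k.2, hk⟩
  · rintro ⟨k, hk, h⟩
    exact ⟨⟨k, hk⟩, h⟩

/-- the map to the coinvariants of the subgroup `K` -/
noncomputable def qq (K : Subgroup H) : (X →₀ ℚ) →ₗ[ℚ] (Orb K X →₀ ℚ) :=
  Finsupp.lmapDomain ℚ ℚ (mk K)

theorem qq_tr {K : Subgroup H} {k : H} (hk : k ∈ K) (v : X →₀ ℚ) : qq K (tr k v) = qq K v := by
  simp only [tr, qq, Finsupp.lmapDomain_apply]
  rw [← Finsupp.mapDomain_comp]
  congr 1
  funext x
  exact mk_eq.2 ⟨k, hk, rfl⟩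

/-- the factor map -/
noncomputable def fac {K S : Subgroup H} (hKS : K ≤ S) : Orb K X → Orb S X :=
  Quotient.map id (by
    rintro x y ⟨k, hk⟩
    exact ⟨⟨k.1, hKS k.2⟩, hk⟩)

theorem fac_mk {K S : Subgroup H} (hKS : K ≤ S) (x : X) : fac hKS (mk K x) = mk S x := rfl

/-- the element `t` normalising `K` permutes the orbits of `K` -/
noncomputable def perm {K : Subgroup H} (t : H) (h1 : ∀ k ∈ K, t * k * t⁻¹ ∈ K)
    (h2 : ∀ k ∈ K, t⁻¹ * k * t ∈ K) : Orb K X ≃ Orb K X where
  toFun := Quotient.map (t • ·) (by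
    rintro x y ⟨k, hk⟩
    refine ⟨⟨t * k.1 * t⁻¹, h1 _ k.2⟩, ?_⟩
    have hk' : k.1 • y = x := hk
    change (t * k.1 * t⁻¹) • (t • y) = t • x
    rw [← hk', smul_smul, smul_smul]
    simp)
  invFun := Quotient.map (t⁻¹ • ·) (by
    rintro x y ⟨k, hk⟩
    refine ⟨⟨t⁻¹ * k.1 * t, h2 _ k.2⟩, ?_⟩
    have hk' : k.1 • y = x := hk
    change (t⁻¹ * k.1 * t) • (t⁻¹ • y) = t⁻¹ • x
    rw [← hk', smul_smul, smul_smul]
    simp)
  left_inv := by
    intro y
    induction y using Quotient.inductionOn
    simp
  right_inv := by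
    intro y
    induction y using Quotient.inductionOn
    simp

theorem perm_mk {K : Subgroup H} (t : H) (h1 : ∀ k ∈ K, t * k * t⁻¹ ∈ K)
    (h2 : ∀ k ∈ K, t⁻¹ * k * t ∈ K) (x : X) : perm t h1 h2 (mk K x) = mk K (t • x) := rfl

/-- the induced linear equivalence -/
noncomputable def tau {K : Subgroup H} (t : H) (h1 : ∀ k ∈ K, t * k * t⁻¹ ∈ K)
    (h2 : ∀ k ∈ K, t⁻¹ * k * t ∈ K) : (Orb K X →₀ ℚ) ≃ₗ[ℚ] (Orb K X →₀ ℚ) :=
  Finsupp.domLCongr (perm t h1 h2)

theorem tau_apply {K : Subgroup H} (t : H) (h1 : ∀ k ∈ K, t * k * t⁻¹ ∈ K)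
    (h2 : ∀ k ∈ K, t⁻¹ * k * t ∈ K) (f : Orb K X →₀ ℚ) :
    tau t h1 h2 f = Finsupp.mapDomain (perm t h1 h2) f := by
  simp [tau, Finsupp.domLCongr_apply, Finsupp.domCongr_apply, Finsupp.equivMapDomain_eq_mapDomain]

theorem tau_qq {K : Subgroup H} (t : H) (h1 : ∀ k ∈ K, t * k * t⁻¹ ∈ K)
    (h2 : ∀ k ∈ K, t⁻¹ * k * t ∈ K) (v : X →₀ ℚ) : tau t h1 h2 (qq K v) = qq K (tr t v) := by
  rw [tau_apply]
  simp only [tr, qq, Finsupp.lmapDomain_apply]
  rw [← Finsupp.mapDomain_comp, ← Finsupp.mapDomain_comp]
  rfl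

theorem tau_zpow {K : Subgroup H} (t : H) (h1 : ∀ k ∈ K, t * k * t⁻¹ ∈ K)
    (h2 : ∀ k ∈ K, t⁻¹ * k * t ∈ K) (n : ℤ) (v : X →₀ ℚ) :
    (tau t h1 h2 ^ n) (qq K v) = qq K (tr (t ^ n) v) := by
  induction n using Int.induction_on generalizing v with
  | zero => simp [tr_one]
  | succ n ih =>
    rw [zpow_add_one, LinearEquiv.mul_apply, tau_qq, ih, ← tr_mul, ← zpow_add_one]
  | pred n ih =>
    rw [zpow_sub_one, LinearEquiv.mul_apply]
    have : (tau t h1 h2)⁻¹ (qq K v) = qq K (tr t⁻¹ v) := by
      have h3 : tau t h1 h2 (qq K (tr t⁻¹ v)) = qq K v := by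
        rw [tau_qq, ← tr_mul, mul_inv_cancel, tr_one]
      rw [← h3]
      exact (tau t h1 h2).symm_apply_apply _
    rw [this, ih, ← tr_mul, ← zpow_sub_one]

theorem tau_fix {K : Subgroup H} (hfree : ∀ (h : H) (x : X), h • x = x → h = 1) (t : H)
    (h1 : ∀ k ∈ K, t * k * t⁻¹ ∈ K) (h2 : ∀ k ∈ K, t⁻¹ * k * t ∈ K)
    (ht : ∀ n : ℤ, t ^ n ∈ K → n = 0) (f : Orb K X →₀ ℚ) (hf : tau t h1 h2 f = f) : f = 0 := by
  have hinv : ∀ y, f (perm t h1 h2 y) = f y := by
    intro y
    rw [tau_apply] at hf
    conv_lhs => rw [← hf]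
    exact Finsupp.mapDomain_apply (perm t h1 h2).injective _ _
  have hmk : ∀ (n : ℕ) (x : X), f (mk K (t ^ n • x)) = f (mk K x) := by
    intro n x
    induction n with
    | zero => simp
    | succ n ih => rw [pow_succ', mul_smul, ← perm_mk t h1 h2, hinv, ih]
  ext y
  induction y using Quotient.inductionOn with
  | _ x =>
    by_contra hne
    have hinj : Function.Injective fun n : ℕ => mk K (t ^ n • x) := by
      intro n m hnm
      obtain ⟨k, hk, h⟩ := mk_eq.1 hnm
      have h3 : (t ^ n)⁻¹ * (k * t ^ m) = 1 := by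
        apply hfree _ x
        rw [mul_smul, mul_smul, h, inv_smul_smul]
      have h4 : t ^ ((n : ℤ) - m) = k := by
        rw [zpow_sub, zpow_natCast, zpow_natCast]
        have h5 : k * t ^ m = t ^ n := by
          rw [inv_mul_eq_one] at h3
          exact h3.symm
        rw [← h5]
        group
      have h6 := ht ((n : ℤ) - m) (by rw [h4]; exact hk)
      omega
    refine Set.infinite_range_of_injective hinj ((f.support.finite_toSet).subset ?_)
    rintro _ ⟨n, rfl⟩
    have : f (mk K (t ^ n • x)) ≠ 0 := by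
      rw [hmk]
      exact hne
    simpa using this

theorem main_ind (hfree : ∀ (h : H) (x : X), h • x = x → h = 1) (hH : LocInd H) :
    ∀ (N : ℕ) (S : Subgroup H) (I : Type) [DecidableEq I] (a : I → (X →₀ ℚ))
      (_ : LinearIndependent ℚ (fun i => qq S (a i))) (T : Type) [Fintype T] (r : T → I)
      (g : T → H) (_ : ∀ t, g t ∈ S) (_ : ∀ t t', r t = r t' → g t = g t' → t = t') (c : T → ℚ)
      (_ : ∀ t, c t ≠ 0) (_ : ∑ t, c t • tr (g t) (a (r t)) = 0)
      (_ : Fintype.card T ≤ (Finset.univ.image r).card + N), IsEmpty T := by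
  intro N
  induction N with
  | zero =>
    intro S I _ a hind T _ r g hg hinj c hc hsum hN
    by_contra hT
    rw [not_isEmpty_iff] at hT
    have hr : Function.Injective r := by
      have : (Finset.univ.image r).card = Fintype.card T :=
        le_antisymm (Finset.card_image_le) (by simpa using hN)
      intro x y hxy
      exact Finset.card_image_iff.1 this (Finset.mem_coe.2 (Finset.mem_univ _))
        (Finset.mem_coe.2 (Finset.mem_univ _)) hxy
    have h1 : ∑ t, c t • qq S (a (r t)) = 0 := by
      have := congrArg (qq S) hsum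
      rw [map_sum, map_zero] at this
      rw [← this]
      exact Finset.sum_congr rfl fun t _ => by rw [map_smul, qq_tr (hg t)]
    have h2 := Fintype.linearIndependent_iff.1 (hind.comp r hr) c h1
    obtain ⟨t⟩ := hT
    exact hc t (h2 t)
  | succ N ih =>
    intro S I _ a hind T _ r g hg hinj c hc hsum hN
    by_contra hT
    rw [not_isEmpty_iff] at hT
    classical
    -- representatives of the rows
    set rep : I → T := Function.invFun r with hrep
    have hrep' : ∀ t, r (rep (r t)) = r t := fun t => Function.invFun_eq ⟨t, rfl⟩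
    set a' : I → (X →₀ ℚ) := fun i => tr (g (rep i)) (a i) with ha'
    set g' : T → H := fun t => g t * (g (rep (r t)))⁻¹ with hg'
    have hg'S : ∀ t, g' t ∈ S := fun t => S.mul_mem (hg t) (S.inv_mem (hg _))
    have hg'rep : ∀ t, g' (rep (r t)) = 1 := by
      intro t
      simp only [hg', hrep']
      exact mul_inv_cancel _
    have htr : ∀ t, tr (g' t) (a' (r t)) = tr (g t) (a (r t)) := by
      intro t
      simp only [hg', ha']
      rw [← tr_mul]
      congr 2
      group
    have hqa' : ∀ i, qq S (a' i) = qq S (a i) := fun i => qq_tr (hg _) _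
    have hinj' : ∀ t t', r t = r t' → g' t = g' t' → t = t' := by
      intro t t' h1 h2
      refine hinj t t' h1 ?_
      simp only [hg', h1] at h2
      exact mul_right_cancel h2
    set S2 : Subgroup H := Subgroup.closure (Set.range g') with hS2
    have hg'S2 : ∀ t, g' t ∈ S2 := fun t => Subgroup.subset_closure ⟨t, rfl⟩
    by_cases hbot : S2 = ⊥
    · -- all the g' are trivial
      have h1 : ∀ t, g' t = 1 := by
        intro t
        have := hg'S2 t
        rw [hbot] at this
        exact Subgroup.mem_bot.1 this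
      have hr : Function.Injective r := fun x y hxy => hinj' x y hxy (by rw [h1, h1])
      have h2 : ∑ t, c t • qq S (a (r t)) = 0 := by
        have := congrArg (qq S) hsum
        rw [map_sum, map_zero] at this
        rw [← this]
        exact Finset.sum_congr rfl fun t _ => by rw [map_smul, qq_tr (hg t)]
      have h3 := Fintype.linearIndependent_iff.1 (hind.comp r hr) c h2
      obtain ⟨t⟩ := hT
      exact hc t (h3 t)
    · obtain ⟨f, hf⟩ := hH S2 (fg_closure_range g') hbot
      obtain ⟨z, hz⟩ : ∃ z : f.range, ∀ x : f.range, x ∈ Subgroup.zpowers z :=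
        IsCyclic.exists_generator
      obtain ⟨⟨t0, ht0⟩, hft0⟩ := z.2
      have hzne : z.1 ≠ 1 := by
        intro h
        apply hf
        ext x
        have := hz ⟨f x, ⟨x, rfl⟩⟩
        obtain ⟨n, hn⟩ := Subgroup.mem_zpowers_iff.1 this
        have h2 := congrArg Subtype.val hn
        simp only [SubgroupClass.coe_zpow, h, one_zpow] at h2
        rw [← h2]
        rfl
      have hzpow : ∀ n : ℤ, z.1 ^ n = 1 → n = 0 := by
        intro n hn
        have h1 : n * Multiplicative.toAdd z.1 = 0 := by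
          have := congrArg Multiplicative.toAdd hn
          simpa [toAdd_zpow] using this
        rcases mul_eq_zero.1 h1 with h | h
        · exact h
        · exact absurd (by rw [← ofAdd_toAdd z.1, h]; rfl) hzne
      have hk : ∀ t, ∃ k : ℤ, z.1 ^ k = f ⟨g' t, hg'S2 t⟩ := by
        intro t
        obtain ⟨n, hn⟩ := Subgroup.mem_zpowers_iff.1 (hz ⟨f ⟨g' t, hg'S2 t⟩, ⟨_, rfl⟩⟩)
        refine ⟨n, ?_⟩
        have h2 := congrArg Subtype.val hn
        simpa using h2
      choose k hk using hk
      set K : Subgroup H := f.ker.map S2.subtype with hK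
      have memK : ∀ h (hh : h ∈ S2), h ∈ K ↔ f ⟨h, hh⟩ = 1 := by
        intro h hh
        rw [hK, Subgroup.mem_map]
        constructor
        · rintro ⟨x, hx, rfl⟩
          exact hx
        · intro hx
          exact ⟨⟨h, hh⟩, hx, rfl⟩
      have KleS2 : K ≤ S2 := by
        rintro _ ⟨x, _, rfl⟩
        exact x.2
      have S2leS : S2 ≤ S := by
        rw [hS2, Subgroup.closure_le]
        rintro _ ⟨t, rfl⟩
        exact hg'S t
      have KleS : K ≤ S := KleS2.trans S2leS
      have h1 : ∀ x ∈ K, t0 * x * t0⁻¹ ∈ K := by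
        intro x hx
        have hx2 := KleS2 hx
        have hfx := (memK x hx2).1 hx
        rw [memK _ (S2.mul_mem (S2.mul_mem ht0 hx2) (S2.inv_mem ht0))]
        have : (⟨t0 * x * t0⁻¹, S2.mul_mem (S2.mul_mem ht0 hx2) (S2.inv_mem ht0)⟩ : S2)
            = ⟨t0, ht0⟩ * ⟨x, hx2⟩ * ⟨t0, ht0⟩⁻¹ := rfl
        rw [this, map_mul, map_mul, hfx, map_inv]
        simp
      have h2 : ∀ x ∈ K, t0⁻¹ * x * t0 ∈ K := by
        intro x hx
        have hx2 := KleS2 hx
        have hfx := (memK x hx2).1 hx
        rw [memK _ (S2.mul_mem (S2.mul_mem (S2.inv_mem ht0) hx2) ht0)]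
        have : (⟨t0⁻¹ * x * t0, S2.mul_mem (S2.mul_mem (S2.inv_mem ht0) hx2) ht0⟩ : S2)
            = ⟨t0, ht0⟩⁻¹ * ⟨x, hx2⟩ * ⟨t0, ht0⟩ := rfl
        rw [this, map_mul, map_mul, hfx, map_inv]
        simp
      have ht : ∀ n : ℤ, t0 ^ n ∈ K → n = 0 := by
        intro n hn
        have := (memK _ (S2.zpow_mem ht0 n)).1 hn
        have h3 : (⟨t0 ^ n, S2.zpow_mem ht0 n⟩ : S2) = ⟨t0, ht0⟩ ^ n := rfl
        rw [h3, map_zpow, hft0] at this
        exact hzpow n this
      -- the new rows
      set a'' : I × ℤ → (X →₀ ℚ) := fun x => tr (t0 ^ x.2) (a' x.1) with ha''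
      have hind' : LinearIndependent ℚ (fun x : I × ℤ => qq K (a'' x)) := by
        have := int_indep (tau (X := X) (K := K) t0 h1 h2) (tau_fix hfree t0 h1 h2 ht)
          (Finsupp.lmapDomain ℚ ℚ (fac (X := X) KleS)) (by
            intro v
            rw [tau_apply]
            simp only [Finsupp.lmapDomain_apply]
            rw [← Finsupp.mapDomain_comp]
            congr 1
            funext y
            induction y using Quotient.inductionOn with
            | _ x => exact mk_eq.2 ⟨t0, S2leS ht0, rfl⟩)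
          (fun i => qq K (a' i)) (by
            have e0 : (fun i => (Finsupp.lmapDomain ℚ ℚ (fac (X := X) KleS)) (qq K (a' i)))
                = fun i => qq S (a i) := by
              funext i
              rw [← hqa' i]
              simp only [qq, Finsupp.lmapDomain_apply]
              rw [← Finsupp.mapDomain_comp]
              rfl
            rw [e0]
            exact hind)
        have e1 : (fun x : I × ℤ => qq K (a'' x))
            = fun x : I × ℤ => (tau (X := X) (K := K) t0 h1 h2 ^ x.2) (qq K (a' x.1)) := by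
          funext x
          exact (tau_zpow t0 h1 h2 x.2 (a' x.1)).symm
        rw [e1]
        exact this
      set r'' : T → I × ℤ := fun t => (r t, k t) with hr''
      set g'' : T → H := fun t => g' t * t0 ^ (-k t) with hg''
      have hg''K : ∀ t, g'' t ∈ K := by
        intro t
        have hm : g'' t ∈ S2 := S2.mul_mem (hg'S2 t) (S2.zpow_mem ht0 _)
        rw [memK _ hm]
        have h3 : (⟨g'' t, hm⟩ : S2) = ⟨g' t, hg'S2 t⟩ * ⟨t0, ht0⟩ ^ (-k t) := rfl
        rw [h3, map_mul, map_zpow, hft0, ← hk t, ← zpow_add]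
        simp
      have hsum'' : ∑ t, c t • tr (g'' t) (a'' (r'' t)) = 0 := by
        rw [← hsum]
        refine Finset.sum_congr rfl fun t _ => ?_
        rw [← htr t]
        simp only [hg'', ha'', hr'']
        rw [← tr_mul]
        congr 3
        group
      have hinj'' : ∀ t t', r'' t = r'' t' → g'' t = g'' t' → t = t' := by
        intro t t' e1 e2
        have e3 : r t = r t' := congrArg Prod.fst e1
        have e4 : k t = k t' := congrArg Prod.snd e1
        refine hinj' t t' e3 ?_
        simp only [hg'', e4] at e2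
        exact mul_right_cancel e2
      have hcard : (Finset.univ.image r).card < (Finset.univ.image r'').card := by
        have e1 : Finset.univ.image r = (Finset.univ.image r'').image Prod.fst := by
          rw [Finset.image_image]
          rfl
        rw [e1]
        refine lt_of_le_of_ne Finset.card_image_le ?_
        intro e2
        have e3 := Finset.card_image_iff.1 e2
        -- some t has k t nonzero
        obtain ⟨t, htk⟩ : ∃ t, k t ≠ 0 := by
          by_contra hcon
          push Not at hcon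
          apply hf
          have e4 : ∀ x (hx : x ∈ S2), f ⟨x, hx⟩ = 1 := by
            intro x hx
            have e5 : S2 ≤ K := by
              rw [hS2, Subgroup.closure_le]
              rintro _ ⟨t, rfl⟩
              exact (memK _ (hg'S2 t)).2 (by rw [← hk t, hcon t, zpow_zero])
            exact (memK x hx).1 (e5 hx)
          ext x
          rw [show x = ⟨x.1, x.2⟩ from rfl, e4 x.1 x.2]
          rfl
        have e6 : k (rep (r t)) = 0 := by
          apply hzpow
          rw [hk]
          have : (⟨g' (rep (r t)), hg'S2 _⟩ : S2) = 1 := Subtype.ext (hg'rep t)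
          rw [this, map_one]
        have e7 : r'' t = r'' (rep (r t)) := by
          apply e3 (Finset.mem_coe.2 (Finset.mem_image_of_mem _ (Finset.mem_univ _)))
            (Finset.mem_coe.2 (Finset.mem_image_of_mem _ (Finset.mem_univ _)))
          exact (hrep' t).symm
        have e8 : k t = k (rep (r t)) := congrArg Prod.snd e7
        exact htk (by rw [e8, e6])
      have hempty := ih K (I × ℤ) a'' hind' T r'' g'' hg''K hinj'' c hc hsum'' (by omega)
      exact hempty.false hT.some

/-- **Lemma D.** Translates of vectors which are independent modulo the action of a locally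
indicable group acting freely are linearly independent. -/
theorem indep (hfree : ∀ (h : H) (x : X), h • x = x → h = 1) (hH : LocInd H) {I : Type}
    (a : I → (X →₀ ℚ)) (hind : LinearIndependent ℚ (fun i => qq (⊤ : Subgroup H) (a i))) :
    LinearIndependent ℚ (fun x : I × H => tr x.2 (a x.1)) := by
  classical
  rw [linearIndependent_iff']
  intro s c hsum x hx
  by_contra hcx
  have hE : IsEmpty {y // y ∈ s.filter (fun y => c y ≠ 0)} := by
    refine main_ind hfree hH (Fintype.card {y // y ∈ s.filter (fun y => c y ≠ 0)}) ⊤ I a hind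
      {y // y ∈ s.filter (fun y => c y ≠ 0)} (fun y => y.1.1) (fun y => y.1.2)
      (fun _ => Subgroup.mem_top _) ?_ (fun y => c y.1) ?_ ?_ (Nat.le_add_left _ _)
    · intro y y' h1 h2
      exact Subtype.ext (Prod.ext h1 h2)
    · intro y
      exact (Finset.mem_filter.1 y.2).2
    · rw [← hsum]
      rw [← Finset.sum_filter_add_sum_filter_not s (fun y => c y ≠ 0)]
      rw [Finset.sum_coe_sort (s.filter (fun y => c y ≠ 0)) (fun y => c y • tr y.2 (a y.1))]
      rw [left_eq_add]
      refine Finset.sum_eq_zero fun y hy => ?_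
      have := (Finset.mem_filter.1 hy).2
      push Not at this
      rw [this, zero_smul]
  exact hE.false ⟨x, Finset.mem_filter.2 ⟨hx, hcx⟩⟩

end action

end LD

end Vale.Agent.P174
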