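import Vale.Agent.P174.TDefs

/-!
# P174: closure properties of locally indicable groups
-/

namespace Vale.Agent.P174

theorem locInd_of {H : Type} [Group H] (h : ∀ S : Subgroup H, S.FG → S ≠ ⊥ →
    ∃ (R : Type) (_ : Group R) (f : S →* R), LocInd R ∧ f ≠ 1) : LocInd H := by
  intro S hS hne
  obtain ⟨R, _, f, hR, hf⟩ := h S hS hne
  have : Group.FG S := (Group.fg_iff_subgroup_fg S).2 hS
  have h1 : f.range.FG := (Group.fg_iff_subgroup_fg f.range).1 (Group.fg_range f)
  have h2 : f.range ≠ ⊥ := by
    intro h0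
    apply hf
    ext x
    have : f x ∈ f.range := ⟨x, rfl⟩
    rw [h0] at this
    simpa using this
  obtain ⟨g, hg⟩ := hR f.range h1 h2
  refine ⟨g.comp f.rangeRestrict, ?_⟩
  intro h0
  apply hg
  ext y
  obtain ⟨x, hx⟩ := f.rangeRestrict_surjective y
  have := DFunLike.congr_fun h0 x
  rw [← hx]
  simpa using this

theorem locInd_pi {I : Type} (R : I → Type) [∀ i, Group (R i)] (h : ∀ i, LocInd (R i)) :
    LocInd (∀ i, R i) := by
  apply locInd_of
  intro S _ hne
  obtain ⟨s, hs, hs1⟩ : ∃ s ∈ S, s ≠ 1 := by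
    by_contra hcon
    push Not at hcon
    exact hne ((Subgroup.eq_bot_iff_forall S).2 hcon)
  obtain ⟨i, hi⟩ : ∃ i, s i ≠ 1 := by
    by_contra hcon
    push Not at hcon
    exact hs1 (funext hcon)
  refine ⟨R i, inferInstance, (Pi.evalMonoidHom R i).comp S.subtype, h i, ?_⟩
  intro h0
  exact hi (by simpa using DFunLike.congr_fun h0 ⟨s, hs⟩)

theorem locInd_wr {M H : Type} [Group M] [Group H] (hM : LocInd M) (hH : LocInd H) :
    LocInd (Wr M H) := by
  apply locInd_of
  intro S _ hne
  by_cases hp : ∀ s ∈ S, s.pt = 1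
  · obtain ⟨s, hs, hs1⟩ : ∃ s ∈ S, s ≠ 1 := by
      by_contra hcon
      push Not at hcon
      exact hne ((Subgroup.eq_bot_iff_forall S).2 hcon)
    obtain ⟨y, hy⟩ : ∃ y, s.fn y ≠ 1 := by
      by_contra hcon
      push Not at hcon
      apply hs1
      ext y
      · simpa using hcon y
      · simpa using hp s hs
    let f : S →* M :=
      { toFun := fun a => a.1.fn y
        map_one' := by simp
        map_mul' := by
          intro a b
          simp [hp a.1 a.2] }
    refine ⟨M, inferInstance, f, hM, ?_⟩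
    intro h0
    exact hy (DFunLike.congr_fun h0 (⟨s, hs⟩ : S))
  · push Not at hp
    obtain ⟨s, hs, hs1⟩ := hp
    let f : S →* H :=
      { toFun := fun a => a.1.pt
        map_one' := by simp
        map_mul' := by
          intro a b
          simp }
    refine ⟨H, inferInstance, f, hH, ?_⟩
    intro h0
    exact hs1 (DFunLike.congr_fun h0 (⟨s, hs⟩ : S))

theorem expVec_map {Q R U : Type} [Group Q] [Group R] (f : Q →* R)
    (w : Monoid.Coprod Q (FreeGroup U)) :
    expVec (Monoid.Coprod.map f (MonoidHom.id (FreeGroup U)) w) = expVec w := by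
  have : (expHom R U).comp (Monoid.Coprod.map f (MonoidHom.id (FreeGroup U))) = expHom Q U := by
    apply Monoid.Coprod.hom_ext
    · ext q
      simp [expHom]
    · ext u
      simp [expHom]
  unfold expVec
  rw [← this]
  rfl

theorem evalAt_map {Q R H U : Type} [Group Q] [Group R] [Group H] (f : Q →* R) (j : R →* H)
    (h : U → H) (w : Monoid.Coprod Q (FreeGroup U)) :
    evalAt j h (Monoid.Coprod.map f (MonoidHom.id (FreeGroup U)) w) = evalAt (j.comp f) h w := by
  have : (evalAt j h).comp (Monoid.Coprod.map f (MonoidHom.id (FreeGroup U)))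
      = evalAt (j.comp f) h := by
    apply Monoid.Coprod.hom_ext
    · ext q
      simp [evalAt]
    · ext u
      simp [evalAt]
  rw [← this]
  rfl

theorem comp_evalAt {Q H K U : Type} [Group Q] [Group H] [Group K] (p : H →* K) (j : Q →* H)
    (h : U → H) (w : Monoid.Coprod Q (FreeGroup U)) :
    p (evalAt j h w) = evalAt (p.comp j) (fun u => p (h u)) w := by
  have : p.comp (evalAt j h) = evalAt (p.comp j) (fun u => p (h u)) := by
    apply Monoid.Coprod.hom_ext
    · ext q
      simp [evalAt]
    · ext u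
      simp [evalAt]
  rw [← this]
  rfl

theorem strong_residual {Q I : Type} [Group Q] (R : I → Type) [∀ i, Group (R i)]
    (f : ∀ i, Q →* R i) (hR : ∀ i, Strong (R i)) (hf : ∀ q : Q, q ≠ 1 → ∃ i, f i q ≠ 1) :
    Strong Q := by
  intro E U w hw
  have hns : ∀ i, NonsingQ (fun e => Monoid.Coprod.map (f i) (MonoidHom.id (FreeGroup U)) (w e)) := by
    intro i
    unfold NonsingQ at hw ⊢
    simpa only [expVec_map] using hw
  choose H hH j h hinj hloc hsol using fun i => hR i E U _ (hns i)
  refine ⟨∀ i, H i, inferInstance, MonoidHom.pi fun i => (j i).comp (f i), fun u i => h i u, ?_,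
    locInd_pi H hloc, ?_⟩
  · rw [injective_iff_map_eq_one]
    intro q hq
    by_contra hne
    obtain ⟨i, hi⟩ := hf q hne
    apply hi
    apply hinj i
    have h1 : j i (f i q) = 1 := congrFun hq i
    rw [h1, map_one]
  · intro e
    funext i
    have h1 := comp_evalAt (Pi.evalMonoidHom H i) (MonoidHom.pi fun i => (j i).comp (f i))
      (fun u i => h i u) (w e)
    have h2 := hsol i e
    rw [evalAt_map] at h2
    exact h1.trans h2

end Vale.Agent.P174
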