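import Vale.Agent.P174.Support

/-!
# P174: Howie's property passes to subgroups and is local
-/

namespace Vale.Agent.P174

universe u v

namespace Local

open Monoid.Coprod

/-- change of coefficients -/
noncomputable def mapC {A B : Type u} [Group A] [Group B] (j : A →* B) (I : Type v) :
    Monoid.Coprod A (FreeGroup I) →* Monoid.Coprod B (FreeGroup I) :=
  Monoid.Coprod.map j (MonoidHom.id _)

lemma mapC_inl {A B : Type u} [Group A] [Group B] (j : A →* B) (I : Type v) (a : A) :
    mapC j I (inl a) = inl (j a) := by simp [mapC]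

lemma mapC_inr {A B : Type u} [Group A] [Group B] (j : A →* B) (I : Type v) (x : FreeGroup I) :
    mapC j I (inr x) = inr x := by simp [mapC]

lemma expVec_mapC {A B : Type u} [Group A] [Group B] (j : A →* B) {I : Type v}
    (x : Monoid.Coprod A (FreeGroup I)) : expVec (mapC j I x) = expVec x := by
  have h : (expHom B I).comp (mapC j I) = expHom A I := by
    apply Monoid.Coprod.hom_ext
    · ext a
      simp [mapC_inl, expHom]
    · apply FreeGroup.ext_hom
      intro i
      simp [mapC_inr, expHom]
  exact congrArg Multiplicative.toAdd (DFunLike.congr_fun h x)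

lemma expMatrix_mapC {A B : Type u} [Group A] [Group B] (j : A →* B) {m n : ℕ}
    (w : Fin m → Monoid.Coprod A (FreeGroup (Fin n))) :
    expMatrix (fun i => mapC j (Fin n) (w i)) = expMatrix w := by
  ext i k
  simp [expMatrix, expVec_mapC]

lemma solvableOver_of_mapC {A B : Type u} [Group A] [Group B] (j : A →* B)
    (hj : Function.Injective j) {m n : ℕ}
    (w : Fin m → Monoid.Coprod A (FreeGroup (Fin n)))
    (h : SolvableOver (fun i => mapC j (Fin n) (w i))) : SolvableOver w := by
  obtain ⟨H, hH, φ, x, hφ, hw⟩ := h
  refine ⟨H, hH, φ.comp j, x, hφ.comp hj, ?_⟩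
  intro i
  rw [← hw i]
  have : Monoid.Coprod.lift (φ.comp j) (FreeGroup.lift x)
      = (Monoid.Coprod.lift φ (FreeGroup.lift x)).comp (mapC j (Fin n)) := by
    apply Monoid.Coprod.hom_ext
    · ext a
      simp [mapC_inl]
    · apply FreeGroup.ext_hom
      intro k
      simp [mapC_inr]
  rw [this]
  rfl

/-- two groups as a family -/
def Fam (B C : Type u) : Bool → Type u
  | true => B
  | false => C

instance instFam (B C : Type u) [Group B] [Group C] : ∀ b, Group (Fam B C b)
  | true => inferInstanceAs (Group B)
  | false => inferInstanceAs (Group C)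

/-- two homomorphisms as a family -/
def famHom {A B C : Type u} [Group A] [Group B] [Group C] (f : A →* B) (g : A →* C) :
    ∀ b, A →* Fam B C b
  | true => f
  | false => g

/-- amalgams -/
lemma exists_amalgam {A B C : Type u} [Group A] [Group B] [Group C] (f : A →* B) (g : A →* C)
    (hf : Function.Injective f) (hg : Function.Injective g) :
    ∃ (D : Type u) (_ : Group D) (i : B →* D) (j : C →* D),
      Function.Injective i ∧ i.comp f = j.comp g := by
  have hφ : ∀ b, Function.Injective (famHom f g b) := by
    intro b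
    cases b
    · exact hg
    · exact hf
  refine ⟨Monoid.PushoutI (famHom f g), inferInstance,
    Monoid.PushoutI.of (φ := famHom f g) true,
    Monoid.PushoutI.of (φ := famHom f g) false, Monoid.PushoutI.of_injective hφ true, ?_⟩
  exact (Monoid.PushoutI.of_comp_eq_base (φ := famHom f g) true).trans
    (Monoid.PushoutI.of_comp_eq_base (φ := famHom f g) false).symm

/-- a system with coefficients in a subgroup, solvable over the subgroup, is solvable over the
group -/
lemma solvableOver_mapC {A B : Type u} [Group A] [Group B] (j : A →* B)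
    (hj : Function.Injective j) {m n : ℕ}
    (w : Fin m → Monoid.Coprod A (FreeGroup (Fin n))) (h : SolvableOver w) :
    SolvableOver (fun i => mapC j (Fin n) (w i)) := by
  obtain ⟨H, hH, φ, x, hφ, hw⟩ := h
  obtain ⟨D, hD, a, b, ha, hab⟩ := exists_amalgam j φ hj hφ
  refine ⟨D, hD, a, fun k => b (x k), ha, ?_⟩
  intro i
  have : (Monoid.Coprod.lift a (FreeGroup.lift fun k => b (x k))).comp (mapC j (Fin n))
      = b.comp (Monoid.Coprod.lift φ (FreeGroup.lift x)) := by
    apply Monoid.Coprod.hom_ext
    · apply MonoidHom.ext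
      intro y
      have := DFunLike.congr_fun hab y
      simpa [mapC_inl] using this
    · apply FreeGroup.ext_hom
      intro k
      simp [mapC_inr]
  have h2 := DFunLike.congr_fun this (w i)
  simp only [MonoidHom.comp_apply] at h2
  rw [h2, hw i, map_one]

lemma mem_range_fg {G : Type u} [Group G] {I : Type v} (x : Monoid.Coprod G (FreeGroup I)) :
    ∃ S : Subgroup G, S.FG ∧ x ∈ (mapC S.subtype I).range := by
  classical
  have mono : ∀ {S T : Subgroup G}, S ≤ T →
      (mapC S.subtype I).range ≤ (mapC T.subtype I).range := by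
    intro S T h
    rintro _ ⟨y, rfl⟩
    refine ⟨mapC (Subgroup.inclusion h) I y, ?_⟩
    have : (mapC T.subtype I).comp (mapC (Subgroup.inclusion h) I) = mapC S.subtype I := by
      apply Monoid.Coprod.hom_ext
      · ext a; simp [mapC_inl]
      · apply FreeGroup.ext_hom
        intro k
        simp [mapC_inr]
    exact DFunLike.congr_fun this y
  have hmul : ∀ a b : Monoid.Coprod G (FreeGroup I),
      (∃ S : Subgroup G, S.FG ∧ a ∈ (mapC S.subtype I).range) →
      (∃ S : Subgroup G, S.FG ∧ b ∈ (mapC S.subtype I).range) →
      ∃ S : Subgroup G, S.FG ∧ a * b ∈ (mapC S.subtype I).range := by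
    rintro a b ⟨A, hA, ha⟩ ⟨B, hB, hb⟩
    exact ⟨A ⊔ B, hA.sup hB, mul_mem (mono le_sup_left ha) (mono le_sup_right hb)⟩
  have hbot : (⊥ : Subgroup G).FG := ⟨∅, by simp⟩
  induction x using Monoid.Coprod.induction_on with
  | inl g =>
    refine ⟨Subgroup.closure {g}, ⟨{g}, by simp⟩,
      inl ⟨g, Subgroup.subset_closure rfl⟩, ?_⟩
    rw [mapC_inl]
    rfl
  | inr x => exact ⟨⊥, hbot, inr x, mapC_inr _ _ _⟩
  | mul x y hx hy => exact hmul x y hx hy

lemma exists_fg {G : Type u} [Group G] {m n : ℕ}
    (w : Fin m → Monoid.Coprod G (FreeGroup (Fin n))) :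
    ∃ (S : Subgroup G) (w' : Fin m → Monoid.Coprod S (FreeGroup (Fin n))), S.FG ∧
      w = fun i => mapC S.subtype (Fin n) (w' i) := by
  classical
  choose S hS hw using fun i => mem_range_fg (w i)
  choose w' hw' using hw
  have hFG : (⨆ i, S i).FG := by
    have : ∀ t : Finset (Fin m), (⨆ i ∈ t, S i).FG := by
      intro t
      induction t using Finset.induction_on with
      | empty => exact ⟨∅, by simp⟩
      | insert a t ha ih =>
        rw [Finset.iSup_insert]
        exact (hS a).sup ih
    simpa using this Finset.univ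
  refine ⟨⨆ i, S i, fun i => mapC (Subgroup.inclusion (le_iSup S i)) (Fin n) (w' i), hFG, ?_⟩
  funext i
  have : (mapC (⨆ i, S i).subtype (Fin n)).comp
      (mapC (Subgroup.inclusion (le_iSup S i)) (Fin n)) = mapC (S i).subtype (Fin n) := by
    apply Monoid.Coprod.hom_ext
    · ext a; simp [mapC_inl]
    · apply FreeGroup.ext_hom
      intro k
      simp [mapC_inr]
  have h2 := DFunLike.congr_fun this (w' i)
  rw [← hw' i]
  exact h2.symm

end Local

open Local

theorem howie_of_injective {A B : Type u} [Group A] [Group B] (j : A →* B)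
    (hj : Function.Injective j) (hB : Howie B) : Howie A := by
  intro m n w hw
  exact solvableOver_of_mapC j hj w (hB m n _ (by rw [expMatrix_mapC]; exact hw))

theorem howieMod_of_injective {p : ℕ} {A B : Type u} [Group A] [Group B] (j : A →* B)
    (hj : Function.Injective j) (hB : HowieMod p B) : HowieMod p A := by
  intro m n w hw
  exact solvableOver_of_mapC j hj w (hB m n _ (by rw [expMatrix_mapC]; exact hw))

theorem howie_of_local {G : Type u} [Group G] (h : ∀ S : Subgroup G, S.FG → Howie S) :
    Howie G := by
  intro m n w hw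
  obtain ⟨S, w', hS, rfl⟩ := exists_fg w
  rw [expMatrix_mapC] at hw
  exact solvableOver_mapC S.subtype S.subtype_injective w' (h S hS m n w' hw)

theorem howieMod_of_local {p : ℕ} {G : Type u} [Group G]
    (h : ∀ S : Subgroup G, S.FG → HowieMod p S) : HowieMod p G := by
  intro m n w hw
  obtain ⟨S, w', hS, rfl⟩ := exists_fg w
  rw [expMatrix_mapC] at hw
  exact solvableOver_mapC S.subtype S.subtype_injective w' (h S hS m n w' hw)

end Vale.Agent.P174
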