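import Vale.Agent.P174.Defs

/-!
# P174 [E]: nonsingular systems mod p with arbitrary right sides in finite p-groups
-/

namespace Vale.Agent.P174

universe u v w'

namespace Pgrp

section twist

variable {G : Type u} [Group G] {I : Type v} [Fintype I] {Q : Type w'} [Group Q]

/-- evaluation multiplied by a power of a central element -/
noncomputable def twist (π : G →* Q) (q : I → Q) (z : Q) (hz : ∀ x : Q, x * z = z * x)
    (l : I → ℤ) : Monoid.Coprod G (FreeGroup I) →* Q where
  toFun w := Monoid.Coprod.lift π (FreeGroup.lift q) w * z ^ (∑ j, expVec w j * l j)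
  map_one' := by simp
  map_mul' a b := by
    have hc : ∀ (x : Q) (k : ℤ), x * z ^ k = z ^ k * x := fun x k =>
      ((show Commute x z from hz x).zpow_right k)
    have e : (∑ j, expVec (a * b) j * l j)
        = (∑ j, expVec a j * l j) + ∑ j, expVec b j * l j := by
      rw [← Finset.sum_add_distrib]
      refine Finset.sum_congr rfl fun j _ => ?_
      rw [expVec_mul, Finsupp.add_apply, add_mul]
    have h1 := hc (Monoid.Coprod.lift π (FreeGroup.lift q) b) (∑ j, expVec a j * l j)
    rw [e, zpow_add, map_mul]
    calc Monoid.Coprod.lift π (FreeGroup.lift q) a * Monoid.Coprod.lift π (FreeGroup.lift q) b *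
          (z ^ (∑ j, expVec a j * l j) * z ^ (∑ j, expVec b j * l j))
        = Monoid.Coprod.lift π (FreeGroup.lift q) a *
          (Monoid.Coprod.lift π (FreeGroup.lift q) b * z ^ (∑ j, expVec a j * l j)) *
            z ^ (∑ j, expVec b j * l j) := by simp only [mul_assoc]
      _ = _ := by rw [h1]; simp only [mul_assoc]

lemma lift_twist (π : G →* Q) (q : I → Q) (z : Q) (hz : ∀ x : Q, x * z = z * x)
    (l : I → ℤ) (w : Monoid.Coprod G (FreeGroup I)) :
    Monoid.Coprod.lift π (FreeGroup.lift fun j => q j * z ^ l j) w
      = Monoid.Coprod.lift π (FreeGroup.lift q) w * z ^ (∑ j, expVec w j * l j) := by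
  classical
  have h : Monoid.Coprod.lift π (FreeGroup.lift fun j => q j * z ^ l j)
      = twist π q z hz l := by
    apply Monoid.Coprod.hom_ext
    · ext g
      simp [twist]
    · apply FreeGroup.ext_hom
      intro j
      have e : (∑ x, (Finsupp.single j (1 : ℤ)) x * l x) = l j := by
        rw [Finset.sum_eq_single j]
        · simp
        · intro b _ hb
          simp [Ne.symm hb]
        · simp
      simp [twist, e]
  rw [h]
  rfl

end twist

lemma exists_mulVec {p : ℕ} [Fact p.Prime] {m n : ℕ} (A : Matrix (Fin m) (Fin n) (ZMod p))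
    (hA : A.rank = m) (b : Fin m → ZMod p) : ∃ x : Fin n → ZMod p, A.mulVec x = b := by
  have h : LinearMap.range A.mulVecLin = ⊤ := by
    apply Submodule.eq_top_of_finrank_eq
    rw [Module.finrank_fin_fun]
    exact hA
  have hb : b ∈ LinearMap.range A.mulVecLin := by rw [h]; trivial
  obtain ⟨x, hx⟩ := hb
  exact ⟨x, by simpa using hx⟩

end Pgrp

open Pgrp in
/-- [E] Pgrp.lean -/
theorem exists_sol_pgroup {p : ℕ} [Fact p.Prime] {G : Type u} [Group G] {m n : ℕ}
    (w : Fin m → Monoid.Coprod G (FreeGroup (Fin n)))
    (hw : ((expMatrix w).map (Int.cast : ℤ → ZMod p)).rank = m)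
    {Q : Type v} [Group Q] [Finite Q] (hQ : IsPGroup p Q) (π : G →* Q) (t : Fin m → Q) :
    ∃ q : Fin n → Q, ∀ i, Monoid.Coprod.lift π (FreeGroup.lift q) (w i) = t i := by
  classical
  obtain ⟨N, hN⟩ : ∃ N, Nat.card Q = N := ⟨_, rfl⟩
  induction N using Nat.strong_induction_on generalizing Q with
  | _ N ih =>
    rcases subsingleton_or_nontrivial Q with hs | hn
    · exact ⟨fun _ => 1, fun i => Subsingleton.elim _ _⟩
    · have hc : Nontrivial (Subgroup.center Q) := hQ.center_nontrivial
      have hcp : IsPGroup p (Subgroup.center Q) := hQ.to_subgroup _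
      obtain ⟨k, hk, hk'⟩ := (IsPGroup.nontrivial_iff_card hcp).mp hc
      have hdvd : p ∣ Nat.card (Subgroup.center Q) := by
        rw [hk']; exact dvd_pow_self p hk.ne'
      obtain ⟨z, hz⟩ := exists_prime_orderOf_dvd_card' p hdvd
      have hz' : orderOf (z : Q) = p := by rw [← hz]; exact Subgroup.orderOf_coe z
      have hzc : ∀ x : Q, x * (z : Q) = (z : Q) * x := fun x =>
        (Subgroup.mem_center_iff.mp z.2 x)
      obtain ⟨z, hzmem⟩ := z
      simp only at hz' hzc
      have hnorm : (Subgroup.zpowers z).Normal := by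
        constructor
        intro a ha g
        obtain ⟨k, rfl⟩ := Subgroup.mem_zpowers_iff.mp ha
        have : g * z ^ k * g⁻¹ = z ^ k := by
          rw [((show Commute g z from hzc g).zpow_right k).eq]; group
        rw [this]
        exact Subgroup.zpow_mem_zpowers z k
      have hcard : Nat.card (Q ⧸ Subgroup.zpowers z) < N := by
        have h1 := Subgroup.card_eq_card_quotient_mul_card_subgroup (Subgroup.zpowers z)
        rw [Nat.card_zpowers, hz', hN] at h1
        have h2 : 0 < Nat.card (Q ⧸ Subgroup.zpowers z) := Nat.card_pos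
        have h3 : 2 ≤ p := (Fact.out : p.Prime).two_le
        nlinarith
      obtain ⟨q', hq'⟩ := ih _ hcard (hQ.to_quotient (Subgroup.zpowers z))
        ((QuotientGroup.mk' (Subgroup.zpowers z)).comp π)
        (fun i => QuotientGroup.mk' (Subgroup.zpowers z) (t i)) rfl
      choose q hq using fun j => QuotientGroup.mk'_surjective (Subgroup.zpowers z) (q' j)
      have hcomp : (QuotientGroup.mk' (Subgroup.zpowers z)).comp
          (Monoid.Coprod.lift π (FreeGroup.lift q))
          = Monoid.Coprod.lift ((QuotientGroup.mk' (Subgroup.zpowers z)).comp π)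
            (FreeGroup.lift q') := by
        apply Monoid.Coprod.hom_ext
        · ext g
          simp
        · apply FreeGroup.ext_hom
          intro j
          simp [← hq]
      have hk : ∀ i, ∃ k : ℤ, z ^ k = (t i)⁻¹ * Monoid.Coprod.lift π (FreeGroup.lift q) (w i) := by
        intro i
        have h1 : QuotientGroup.mk' (Subgroup.zpowers z)
            (Monoid.Coprod.lift π (FreeGroup.lift q) (w i))
            = QuotientGroup.mk' (Subgroup.zpowers z) (t i) := by
          rw [← hq' i, ← hcomp]; rfl
        have h2 : (t i)⁻¹ * Monoid.Coprod.lift π (FreeGroup.lift q) (w i)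
            ∈ Subgroup.zpowers z := by
          have := QuotientGroup.eq.mp h1.symm
          exact this
        exact Subgroup.mem_zpowers_iff.mp h2
      choose k hk using hk
      obtain ⟨x, hx⟩ := exists_mulVec _ hw (fun i => ((-k i : ℤ) : ZMod p))
      refine ⟨fun j => q j * z ^ ((x j).val : ℤ), fun i => ?_⟩
      rw [lift_twist π q z hzc (fun j => ((x j).val : ℤ)) (w i)]
      have h3 : z ^ (∑ j, expVec (w i) j * ((x j).val : ℤ)) = z ^ (- k i) := by
        rw [zpow_eq_zpow_iff_modEq, hz', ← ZMod.intCast_eq_intCast_iff]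
        have h4 := congrFun hx i
        rw [← h4]
        push_cast
        simp [Matrix.mulVec, dotProduct, expMatrix]
      rw [h3, zpow_neg, hk i]
      group

end Vale.Agent.P174
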