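import Vale.Agent.P174.Wreath
import Vale.Agent.P174.Support
import Vale.Agent.P174.Pgrp
import Vale.Agent.P174.Jac2
import Vale.Agent.P174.Local

/-!
# P174: main theorems
-/

namespace Vale.Agent.P174

universe u v

/-- rows as finitely supported functions -/
lemma indep_finsupp_of_rank {K : Type*} [Field K] {G : Type u} [Group G] {m n : ℕ}
    (w : Fin m → Monoid.Coprod G (FreeGroup (Fin n)))
    (hw : ((expMatrix w).map (Int.cast : ℤ → K)).rank = m) :
    LinearIndependent K
      (fun i => (expVec (w i)).mapRange (Int.cast : ℤ → K) (by simp)) := by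
  rw [rank_eq_iff] at hw
  let L := (Finsupp.linearEquivFunOnFinite K K (Fin n)).symm
  have h1 := hw.map' L.toLinearMap L.ker
  have h2 : (L.toLinearMap ∘ fun i => ((expMatrix w).map (Int.cast : ℤ → K)) i)
      = (fun i => (expVec (w i)).mapRange (Int.cast : ℤ → K) (by simp)) := by
    funext i
    ext j
    simp [L, expMatrix]
  rw [h2] at h1
  exact h1

open Wreath in
/-- the derived rows -/
lemma derived_indep {p : ℕ} [Fact p.Prime] {G : Type u} [Group G] {P : Type v} [Group P]
    (hP : ResP p P) (π : G →* P) {m n : ℕ} (q : Fin n → P)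
    (w : Fin m → Monoid.Coprod G (FreeGroup (Fin n)))
    (hw : ((expMatrix w).map (Int.cast : ℤ → ZMod p)).rank = m) :
    LinearIndependent (ZMod p)
      (fun k => (expVec (derived π q w k)).mapRange (Int.cast : ℤ → ZMod p) (by simp)) := by
  have hcast : ∀ x y : ℤ, ((x + y : ℤ) : ZMod p) = (x : ZMod p) + (y : ZMod p) := by
    intro x y; push_cast; ring
  let r : Fin m → (Fin n × P →₀ ZMod p) := fun i =>
    (D π q (w i) 1).mapRange (Int.cast : ℤ → ZMod p) (by simp)
  have hr : (fun i => Finsupp.mapDomain (Prod.fst : Fin n × P → Fin n) (r i))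
      = (fun i => (expVec (w i)).mapRange (Int.cast : ℤ → ZMod p) (by simp)) := by
    funext i
    simp only [r]
    rw [Finsupp.mapDomain_mapRange _ _ _ _ hcast, D_aug]
  have h1 := indep_translate hP r (by rw [hr]; exact indep_finsupp_of_rank w hw)
  have h2 : (fun k : Fin m × P =>
      Finsupp.mapDomain (fun x : Fin n × P => (x.1, x.2 * k.2)) (r k.1))
      = (fun k => (expVec (derived π q w k)).mapRange (Int.cast : ℤ → ZMod p) (by simp)) := by
    funext k
    simp only [r]
    rw [Finsupp.mapDomain_mapRange _ _ _ _ hcast]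
    have h3 : expVec (derived π q w k) = Finsupp.mapDomain (tr k.2) (D π q (w k.1) 1) :=
      D_translate π q (w k.1) k.2
    rw [h3]
    rfl
  rw [h2] at h1
  exact h1

lemma howieMod_congr {p : ℕ} {G : Type u} [Group G] {A B : Subgroup G} (h : A = B)
    (hA : HowieMod p A) : HowieMod p B := by
  subst h; exact hA

lemma howie_congr {G : Type u} [Group G] {A B : Subgroup G} (h : A = B)
    (hA : Howie A) : Howie B := by
  subst h; exact hA

theorem howieMod_of_hom {p : ℕ} [Fact p.Prime] {G : Type u} [Group G] {Q : Type u} [Group Q]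
    (π : G →* Q) (hQ : ResP p Q) (hN : HowieMod p π.ker) : HowieMod p G := by
  intro m n w hw
  rw [solvableOver_iff_sol]
  choose F hG hF hp f hf using hQ
  let S := {s : Q // s ≠ 1}
  let instG : ∀ s : S, Group (F s.1 s.2) := fun s => hG s.1 s.2
  let P := ∀ s : S, F s.1 s.2
  let fs : ∀ s : S, Q →* F s.1 s.2 := fun s => f s.1 s.2
  let φ : Q →* P := MonoidHom.pi fs
  have hφ : Function.Injective φ := by
    rw [injective_iff_map_eq_one]
    intro s hs
    by_contra hne
    exact hf s hne (congrFun hs ⟨s, hne⟩)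
  have hP : ResP p P := by
    intro s hs
    have : ∃ k, s k ≠ 1 := by
      by_contra hcon
      push Not at hcon
      exact hs (funext hcon)
    obtain ⟨k, hk⟩ := this
    exact ⟨F k.1 k.2, instG k, hF k.1 k.2, hp k.1 k.2, Pi.evalMonoidHom _ k, hk⟩
  have hsol : ∀ k : S, ∃ q : Fin n → F k.1 k.2,
      ∀ i, Monoid.Coprod.lift ((fs k).comp π) (FreeGroup.lift q) (w i) = 1 := by
    intro k
    have := hF k.1 k.2
    exact exists_sol_pgroup w hw (hp k.1 k.2) ((fs k).comp π) 1
  choose qk hqk using hsol
  let q : Fin n → P := fun j k => qk k j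
  have hq : ∀ i, Monoid.Coprod.lift (φ.comp π) (FreeGroup.lift q) (w i) = 1 := by
    intro i
    funext k
    have h1 : (Pi.evalMonoidHom (fun s : S => F s.1 s.2) k).comp
        (Monoid.Coprod.lift (φ.comp π) (FreeGroup.lift q))
        = Monoid.Coprod.lift ((fs k).comp π) (FreeGroup.lift (qk k)) := by
      apply Monoid.Coprod.hom_ext
      · ext g
        simp only [MonoidHom.comp_apply, Monoid.Coprod.lift_apply_inl]
        rfl
      · apply FreeGroup.ext_hom
        intro j
        simp [q]
    have h2 := DFunLike.congr_fun h1 (w i)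
    exact h2.trans (hqk k i)
  have hker : π.ker = (φ.comp π).ker := by
    ext g
    simp only [MonoidHom.mem_ker, MonoidHom.comp_apply]
    constructor
    · intro h; rw [h, map_one]
    · intro h; exact hφ (by rw [h, map_one])
  exact Wreath.sol_of_derived (φ.comp π) q w hq
    (sol_of_howieMod_infinite (howieMod_congr hker hN) _ (derived_indep hP (φ.comp π) q w hw))

theorem howie_of_hom {G : Type u} [Group G] {Q : Type u} [Group Q] (π : G →* Q)
    (hQ : ∀ B : ℕ, ∃ p : ℕ, B < p ∧ p.Prime ∧ ResP p Q) (hN : Howie π.ker) : Howie G := by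
  intro m n w hw
  obtain ⟨B, hB⟩ := exists_bound (expMatrix w) hw
  obtain ⟨p, hBp, hp, hres⟩ := hQ B
  have : Fact p.Prime := ⟨hp⟩
  have hN' : HowieMod p π.ker := by
    intro m' n' w' hw'
    exact hN m' n' w' (rank_rat_of_mod _ hw')
  exact howieMod_of_hom π hres hN' m n w (hB p hp hBp)

theorem main1 {p : ℕ} [Fact p.Prime] {G : Type u} [Group G] (N : Subgroup G) [N.Normal]
    (hQ : ResP p (G ⧸ N)) (hN : HowieMod p N) : HowieMod p G :=
  howieMod_of_hom (QuotientGroup.mk' N) hQ
    (howieMod_congr (QuotientGroup.ker_mk' N).symm hN)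

theorem main2 {G : Type u} [Group G] (N : Subgroup G) [N.Normal]
    (hQ : ∀ B : ℕ, ∃ p : ℕ, B < p ∧ p.Prime ∧ ResP p (G ⧸ N)) (hN : Howie N) : Howie G :=
  howie_of_hom (QuotientGroup.mk' N) hQ (howie_congr (QuotientGroup.ker_mk' N).symm hN)

section localVersion

variable {G : Type u} [Group G] (N : Subgroup G) [N.Normal] (S : Subgroup G)

/-- the restriction of the quotient map to a subgroup -/
def resHom : S →* (S.map (QuotientGroup.mk' N)) := (QuotientGroup.mk' N).subgroupMap S

lemma mem_of_resHom (x : S) (hx : x ∈ (resHom N S).ker) : (x : G) ∈ N := by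
  have h1 : resHom N S x = 1 := hx
  have h2 : ((resHom N S x : S.map (QuotientGroup.mk' N)) : G ⧸ N) = 1 := by rw [h1]; rfl
  have h3 : (QuotientGroup.mk' N) (x : G) = 1 := h2
  rwa [QuotientGroup.mk'_apply, QuotientGroup.eq_one_iff] at h3

/-- the kernel of the restriction embeds in `N` -/
def kerHom : (resHom N S).ker →* N where
  toFun x := ⟨x.1.1, mem_of_resHom N S x.1 x.2⟩
  map_one' := rfl
  map_mul' _ _ := rfl

lemma kerHom_injective : Function.Injective (kerHom N S) := by
  intro a b h
  have := congrArg Subtype.val h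
  exact Subtype.ext (Subtype.ext this)

lemma map_fg (hS : S.FG) : (S.map (QuotientGroup.mk' N)).FG := by
  classical
  obtain ⟨T, hT⟩ := hS
  refine ⟨T.image (QuotientGroup.mk' N), ?_⟩
  rw [Finset.coe_image, ← MonoidHom.map_closure, hT]

end localVersion

/-- extension theorem modulo `p` -/
theorem extension_mod {p : ℕ} [Fact p.Prime] {G : Type u} [Group G] (N : Subgroup G) [N.Normal]
    (hQ : ∀ S : Subgroup (G ⧸ N), S.FG → ResP p S) (hN : HowieMod p N) : HowieMod p G := by
  apply howieMod_of_local
  intro S hS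
  exact howieMod_of_hom (resHom N S) (hQ _ (map_fg N S hS))
    (howieMod_of_injective (kerHom N S) (kerHom_injective N S) hN)

/-- extension theorem -/
theorem extension {G : Type u} [Group G] (N : Subgroup G) [N.Normal]
    (hQ : ∀ S : Subgroup (G ⧸ N), S.FG → ∀ B : ℕ, ∃ p : ℕ, B < p ∧ p.Prime ∧ ResP p S)
    (hN : Howie N) : Howie G := by
  apply howie_of_local
  intro S hS
  exact howie_of_hom (resHom N S) (hQ _ (map_fg N S hS))
    (howie_of_injective (kerHom N S) (kerHom_injective N S) hN)

end Vale.Agent.P174
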