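import Vale.Agent.P174.Defs

/-!
# P174: locally indicable groups, the strong form, and the unrestricted wreath product
-/

namespace Vale.Agent.P174

/-- Locally indicable groups. -/
def LocInd (H : Type) [Group H] : Prop :=
  ∀ S : Subgroup H, S.FG → S ≠ ⊥ → ∃ f : S →* Multiplicative ℤ, f ≠ 1

/-- The value of words when the coefficients are mapped by `i` and the unknowns replaced by `h`. -/
noncomputable def evalAt {G H U : Type} [Group G] [Group H] (i : G →* H) (h : U → H) :
    Monoid.Coprod G (FreeGroup U) →* H :=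
  Monoid.Coprod.lift i (FreeGroup.lift h)

/-- The rows of the exponent-sum matrix are linearly independent over `ℚ`. -/
def NonsingQ {G E U : Type} [Group G] (w : E → Monoid.Coprod G (FreeGroup U)) : Prop :=
  LinearIndependent ℚ fun (e : E) (u : U) => (expVec (w e) u : ℚ)

/-- Every nonsingular system over `Q`, finite or not, has a solution in a locally indicable
overgroup. -/
def Strong (Q : Type) [Group Q] : Prop :=
  ∀ (E U : Type) (w : E → Monoid.Coprod Q (FreeGroup U)), NonsingQ w →
    ∃ (H : Type) (_ : Group H) (i : Q →* H) (h : U → H),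
      Function.Injective i ∧ LocInd H ∧ ∀ e, evalAt i h (w e) = 1

/-- The unrestricted wreath product: functions `H → M` extended by `H`. -/
@[ext] structure Wr (M H : Type) where
  /-- the function -/
  fn : H → M
  /-- the point -/
  pt : H

namespace Wr

variable {M H : Type} [Group M] [Group H]

instance : Mul (Wr M H) := ⟨fun a b => ⟨fun y => a.fn y * b.fn (a.pt⁻¹ * y), a.pt * b.pt⟩⟩
instance : One (Wr M H) := ⟨⟨fun _ => 1, 1⟩⟩
instance : Inv (Wr M H) := ⟨fun a => ⟨fun y => (a.fn (a.pt * y))⁻¹, a.pt⁻¹⟩⟩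

@[simp] theorem mul_fn (a b : Wr M H) (y : H) : (a * b).fn y = a.fn y * b.fn (a.pt⁻¹ * y) := rfl
@[simp] theorem mul_pt (a b : Wr M H) : (a * b).pt = a.pt * b.pt := rfl
@[simp] theorem one_fn (y : H) : (1 : Wr M H).fn y = 1 := rfl
@[simp] theorem one_pt : (1 : Wr M H).pt = 1 := rfl
@[simp] theorem inv_fn (a : Wr M H) (y : H) : (a⁻¹).fn y = (a.fn (a.pt * y))⁻¹ := rfl
@[simp] theorem inv_pt (a : Wr M H) : (a⁻¹).pt = a.pt⁻¹ := rfl

instance : Group (Wr M H) :=
  Group.ofLeftAxioms
    (fun a b c => by ext y <;> simp [mul_assoc])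
    (fun a => by ext y <;> simp)
    (fun a => by ext y <;> simp)

end Wr

end Vale.Agent.P174
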