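import Vale.Agent.P174.TWreath
import Vale.Agent.P174.InfSol

/-!
# P174: extensions with quotient in the strong class
-/

namespace Vale.Agent.P174

open Monoid

/-- The core: a nonsingular system over `G`, a homomorphism `ρ` of `G` to a locally indicable group
`H` in which the system is solved, and solutions of the derived nonsingular system over the kernel
of `ρ` give a solution over `G` in a wreath product. -/
theorem core {G H : Type} [Group G] [Group H] (ρ : G →* H) (hH : LocInd H) {E U : Type}
    (w : E → Coprod G (FreeGroup U)) (hw : NonsingQ w) (h : U → H)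
    (hsol : ∀ e, evalAt ρ h (w e) = 1) (C : ∀ (M : Type) [Group M], Prop)
    (hN : ∀ (E' U' : Type) (w' : E' → Coprod ρ.ker (FreeGroup U')), NonsingQ w' →
      ∃ (M : Type) (_ : Group M) (j : ρ.ker →* M) (f : U' → M),
        Function.Injective j ∧ C M ∧ ∀ e, evalAt j f (w' e) = 1) :
    ∃ (M : Type) (_ : Group M) (i : G →* Wr M H) (f : U → Wr M H),
      Function.Injective i ∧ C M ∧ ∀ e, evalAt i f (w e) = 1 := by
  obtain ⟨s, hs⟩ := TW.exists_section ρ
  obtain ⟨M, _, j, f, hj, hC, hf⟩ := hN (E × H) (U × H) _ (TW.nonsing_derived ρ s hs h hH w hw)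
  exact ⟨M, inferInstance, TW.emb ρ s hs j, fun u => ⟨fun y => f (u, y), h u⟩,
    TW.emb_injective ρ s hs j hj, hC,
    fun e => TW.solve ρ s hs h j f (w e) (hsol e) (fun y => hf (e, y))⟩

theorem push {G R : Type} [Group G] [Group R] (f : G →* R) (hR : Strong R) {E U : Type}
    (w : E → Coprod G (FreeGroup U)) (hw : NonsingQ w) :
    ∃ (H : Type) (_ : Group H) (ρ : G →* H) (h : U → H),
      ρ.ker = f.ker ∧ LocInd H ∧ ∀ e, evalAt ρ h (w e) = 1 := by
  have hns : NonsingQ (fun e => Coprod.map f (MonoidHom.id (FreeGroup U)) (w e)) := by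
    unfold NonsingQ at hw ⊢
    simpa only [expVec_map] using hw
  obtain ⟨H, _, i, h, hi, hH, hsol⟩ := hR E U _ hns
  refine ⟨H, inferInstance, i.comp f, h, ?_, hH, fun e => ?_⟩
  · ext g
    rw [MonoidHom.mem_ker, MonoidHom.mem_ker, MonoidHom.comp_apply, map_eq_one_iff i hi]
  · rw [← evalAt_map]
    exact hsol e

/-- The strong class is closed under extensions. -/
theorem strong_extension {G R : Type} [Group G] [Group R] (f : G →* R) (hK : Strong f.ker)
    (hR : Strong R) : Strong G := by
  intro E U w hw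
  obtain ⟨H, _, ρ, h, hker, hH, hsol⟩ := push f hR w hw
  rw [← hker] at hK
  obtain ⟨M, _, i, f', hi, hC, hf'⟩ := core ρ hH w hw h hsol (fun M _ => LocInd M)
    (fun E' U' w' hw' => hK E' U' w' hw')
  exact ⟨Wr M H, inferInstance, i, f', hi, locInd_wr hC hH, hf'⟩

/-- Extensions of Howie groups by strong groups are Howie groups. -/
theorem howie_extension {G R : Type} [Group G] [Group R] (f : G →* R) (hK : Howie f.ker)
    (hR : Strong R) : Howie G := by
  intro m n w hw
  have hns : NonsingQ w := by
    have := (rank_eq_iff _).1 hw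
    exact this
  obtain ⟨H, _, ρ, h, hker, hH, hsol⟩ := push f hR w hns
  rw [← hker] at hK
  obtain ⟨M, _, i, f', hi, _, hf'⟩ := core ρ hH w hns h hsol (fun _ _ => True)
    (fun E' U' w' hw' => by
      obtain ⟨M, _, j, f, hj, hf⟩ := howie_inf hK E' U' w' hw'
      exact ⟨M, inferInstance, j, f, hj, trivial, hf⟩)
  exact ⟨Wr M H, inferInstance, i, f', hi, hf'⟩

end Vale.Agent.P174
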