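import Vale.Agent.P174.TMain
import Vale.Agent.P174.Abel

/-!
# P174: groups all of whose nontrivial subgroups map nontrivially to `ℚ` are strong
-/

namespace Vale.Agent.P174

namespace TS

theorem strong_of_injective {Q R : Type} [Group Q] [Group R] (f : Q →* R)
    (hf : Function.Injective f) (hR : Strong R) : Strong Q :=
  strong_residual (I := Unit) (fun _ => R) (fun _ => f) (fun _ => hR) (fun q hq =>
    ⟨(), fun h => hq ((injective_iff_map_eq_one f).1 hf q h)⟩)

/-- the smallest kernel of a homomorphism to a strong group -/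
theorem exists_min (Q : Type) [Group Q] : ∃ (R : Type) (_ : Group R) (f : Q →* R), Strong R ∧
    ∀ (R' : Type) [Group R'] (f' : Q →* R'), Strong R' → f.ker ≤ f'.ker := by
  classical
  set P : Q → Prop := fun q => ∃ (R : Type) (_ : Group R) (f : Q →* R), Strong R ∧ f q ≠ 1 with hP
  have hex : ∀ i : {q : Q // P q}, ∃ (R : Type) (_ : Group R) (f : Q →* R), Strong R ∧ f i.1 ≠ 1 :=
    fun i => i.2
  choose R hR f hS hne using hex
  refine ⟨∀ i : {q : Q // P q}, R i, inferInstance, MonoidHom.pi f, ?_, ?_⟩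
  · refine strong_residual R (fun i => Pi.evalMonoidHom R i) hS ?_
    intro x hx
    by_contra hcon
    push Not at hcon
    exact hx (funext hcon)
  · intro R' _ f' hR' q hq
    rw [MonoidHom.mem_ker] at hq ⊢
    by_contra hcon
    exact hne ⟨q, R', inferInstance, f', hR', hcon⟩ (congrFun hq ⟨q, R', inferInstance, f', hR', hcon⟩)

end TS

theorem strong_of_subgroups' {Q : Type} [Group Q]
    (hAb : ∀ (A : Type) [Group A], (∀ a b : A, a * b = b * a) →
      (∀ (a : A) (k : ℕ), k ≠ 0 → a ^ k = 1 → a = 1) → Strong A)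
    (h : ∀ K : Subgroup Q, K ≠ ⊥ → ∃ f : K →* Multiplicative ℚ, f ≠ 1) : Strong Q := by
  obtain ⟨R, _, f, hR, hmin⟩ := TS.exists_min Q
  by_cases hbot : f.ker = ⊥
  · exact TS.strong_of_injective f ((MonoidHom.ker_eq_bot_iff f).1 hbot) hR
  exfalso
  obtain ⟨g0, hg0⟩ := h f.ker hbot
  -- the smaller normal subgroup
  set K1 : Subgroup Q :=
    { carrier := {x | ∃ hx : x ∈ f.ker, ∀ g : f.ker →* Multiplicative ℚ, g ⟨x, hx⟩ = 1}
      one_mem' := ⟨one_mem _, fun g => map_one g⟩
      mul_mem' := by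
        rintro a b ⟨ha, ha'⟩ ⟨hb, hb'⟩
        refine ⟨mul_mem ha hb, fun g => ?_⟩
        have : (⟨a * b, mul_mem ha hb⟩ : f.ker) = ⟨a, ha⟩ * ⟨b, hb⟩ := rfl
        rw [this, map_mul, ha', hb', one_mul]
      inv_mem' := by
        rintro a ⟨ha, ha'⟩
        refine ⟨inv_mem ha, fun g => ?_⟩
        have : (⟨a⁻¹, inv_mem ha⟩ : f.ker) = ⟨a, ha⟩⁻¹ := rfl
        rw [this, map_inv, ha', inv_one] } with hK1
  have mem1 : ∀ x, x ∈ K1 ↔ ∃ hx : x ∈ f.ker, ∀ g : f.ker →* Multiplicative ℚ, g ⟨x, hx⟩ = 1 :=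
    fun x => Iff.rfl
  have hnorm : K1.Normal := by
    constructor
    rintro x ⟨hx, hx'⟩ q
    refine ⟨(MonoidHom.normal_ker f).conj_mem x hx q, fun g => ?_⟩
    have := hx' (g.comp (MulAut.conjNormal q : MulAut f.ker).toMonoidHom)
    rw [← this]
    rfl
  have hle : K1 ≤ f.ker := fun x hx => hx.1
  set fb : Q ⧸ K1 →* R := QuotientGroup.lift K1 f (fun x hx => hle hx) with hfb
  have hker : ∀ x : Q, (QuotientGroup.mk x : Q ⧸ K1) ∈ fb.ker ↔ x ∈ f.ker := by
    intro x
    rw [MonoidHom.mem_ker, MonoidHom.mem_ker]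
    rfl
  have hcomm : ∀ x y : Q, x ∈ f.ker → y ∈ f.ker → (QuotientGroup.mk (x * y) : Q ⧸ K1)
      = QuotientGroup.mk (y * x) := by
    intro x y hx hy
    rw [QuotientGroup.eq]
    refine ⟨mul_mem (inv_mem (mul_mem hx hy)) (mul_mem hy hx), fun g => ?_⟩
    have : (⟨(x * y)⁻¹ * (y * x), mul_mem (inv_mem (mul_mem hx hy)) (mul_mem hy hx)⟩ : f.ker)
        = (⟨x, hx⟩ * ⟨y, hy⟩)⁻¹ * (⟨y, hy⟩ * ⟨x, hx⟩) := rfl
    rw [this, map_mul, map_inv, map_mul, map_mul, mul_comm (g ⟨y, hy⟩) (g ⟨x, hx⟩), inv_mul_cancel]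
  have hSK : Strong fb.ker := by
    apply hAb
    · rintro ⟨a, ha⟩ ⟨b, hb⟩
      apply Subtype.ext
      change a * b = b * a
      induction a using QuotientGroup.induction_on with
      | H x =>
        induction b using QuotientGroup.induction_on with
        | H y => exact hcomm x y ((hker x).1 ha) ((hker y).1 hb)
    · rintro ⟨a, ha⟩ k hk hak
      apply Subtype.ext
      change a = 1
      have hak' : a ^ k = 1 := congrArg Subtype.val hak
      induction a using QuotientGroup.induction_on with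
      | H x =>
        have hx := (hker x).1 ha
        rw [← QuotientGroup.mk_pow, QuotientGroup.eq_one_iff] at hak'
        rw [QuotientGroup.eq_one_iff]
        refine ⟨hx, fun g => ?_⟩
        obtain ⟨h1, h2⟩ := hak'
        have h3 := h2 g
        have h4 : (⟨x ^ k, h1⟩ : f.ker) = ⟨x, hx⟩ ^ k := rfl
        rw [h4, map_pow] at h3
        have h5 : (k : ℚ) * Multiplicative.toAdd (g ⟨x, hx⟩) = 0 := by
          have := congrArg Multiplicative.toAdd h3
          simpa [toAdd_pow] using this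
        rcases mul_eq_zero.1 h5 with h6 | h6
        · exact absurd (by exact_mod_cast h6) hk
        · exact Multiplicative.toAdd.injective h6
  have hS1 : Strong (Q ⧸ K1) := strong_extension fb hSK hR
  have h1 := hmin (Q ⧸ K1) (QuotientGroup.mk' K1) hS1
  rw [QuotientGroup.ker_mk'] at h1
  apply hg0
  ext x
  have := h1 x.2
  obtain ⟨hx, hx'⟩ := this
  rw [show x = ⟨x.1, hx⟩ from rfl, hx' g0]
  rfl

theorem strong_of_subgroups {Q : Type} [Group Q]
    (h : ∀ K : Subgroup Q, K ≠ ⊥ → ∃ f : K →* Multiplicative ℚ, f ≠ 1) : Strong Q :=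
  strong_of_subgroups' (fun A _ hc ht => strong_abelian hc ht) h

/-- **Third extension theorem.** -/
theorem main3_of_hom {G Q : Type} [Group G] [Group Q] (π : G →* Q)
    (hQ : ∀ K : Subgroup Q, K ≠ ⊥ → ∃ f : K →* Multiplicative ℚ, f ≠ 1) (hN : Howie π.ker) :
    Howie G :=
  howie_extension π hN (strong_of_subgroups hQ)

end Vale.Agent.P174
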