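import Vale.Agent.P174.LD
import Vale.Agent.P174.LocInd

/-!
# P174: the wreath product argument over a locally indicable group
-/

namespace Vale.Agent.P174

open Monoid

namespace TW

variable {G H M M' : Type} [Group G] [Group H] [Group M] [Group M']

/-- functoriality of the wreath product -/
def wmap (f : M →* M') : Wr M H →* Wr M' H where
  toFun a := ⟨fun y => f (a.fn y), a.pt⟩
  map_one' := by ext y <;> simp
  map_mul' a b := by ext y <;> simp

/-- right translation -/
def shift (z : H) : Wr M H →* Wr M H where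
  toFun a := ⟨fun y => a.fn (y * z), a.pt⟩
  map_one' := by ext y <;> simp
  map_mul' a b := by ext y <;> simp [mul_assoc]

/-- the projection to `H` -/
def ptHom : Wr M H →* H where
  toFun a := a.pt
  map_one' := rfl
  map_mul' _ _ := rfl

theorem exists_section (ρ : G →* H) :
    ∃ s : H → G, ∀ g y, ρ ((s y)⁻¹ * g * s ((ρ g)⁻¹ * y)) = 1 := by
  classical
  set r : H → H := fun y => (Quotient.mk (QuotientGroup.rightRel ρ.range) y).out with hr
  have h1 : ∀ y, y * (r y)⁻¹ ∈ ρ.range := by
    intro y
    have : (QuotientGroup.rightRel ρ.range) (r y) y := Quotient.mk_out y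
    rwa [QuotientGroup.rightRel_apply] at this
  have h2 : ∀ g y, r ((ρ g)⁻¹ * y) = r y := by
    intro g y
    simp only [hr]
    congr 1
    apply Quotient.sound
    change (QuotientGroup.rightRel ρ.range) _ _
    rw [QuotientGroup.rightRel_apply]
    refine ⟨g, ?_⟩
    group
  choose s hs using h1
  refine ⟨s, fun g y => ?_⟩
  rw [map_mul, map_mul, map_inv, hs, hs, h2]
  group

/-- the embedding of `G` in the wreath product -/
def emb (ρ : G →* H) (s : H → G) (hs : ∀ g y, ρ ((s y)⁻¹ * g * s ((ρ g)⁻¹ * y)) = 1)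
    (j : ρ.ker →* M) : G →* Wr M H where
  toFun g := ⟨fun y => j ⟨(s y)⁻¹ * g * s ((ρ g)⁻¹ * y), hs g y⟩, ρ g⟩
  map_one' := by
    ext y
    · simp only [Wr.one_fn]
      rw [← map_one j]
      congr 1
      apply Subtype.ext
      simp
    · simp
  map_mul' a b := by
    ext y
    · simp only [Wr.mul_fn]
      rw [← map_mul j]
      congr 1
      apply Subtype.ext
      simp [mul_assoc]
    · simp

theorem emb_injective (ρ : G →* H) (s : H → G)
    (hs : ∀ g y, ρ ((s y)⁻¹ * g * s ((ρ g)⁻¹ * y)) = 1) (j : ρ.ker →* M)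
    (hj : Function.Injective j) : Function.Injective (emb ρ s hs j) := by
  rw [injective_iff_map_eq_one]
  intro g hg
  have h1 : ρ g = 1 := congrArg Wr.pt hg
  have h2 : j ⟨(s 1)⁻¹ * g * s ((ρ g)⁻¹ * 1), hs g 1⟩ = 1 := congrFun (congrArg Wr.fn hg) 1
  have h3 := (injective_iff_map_eq_one j).1 hj _ h2
  have h4 : (s 1)⁻¹ * g * s ((ρ g)⁻¹ * 1) = 1 := congrArg Subtype.val h3
  rw [h1, inv_one, mul_one] at h4
  have h5 : g = s 1 * ((s 1)⁻¹ * g * s 1) * (s 1)⁻¹ := by group
  rw [h5, h4]
  group

variable {U : Type}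

/-- the universal solution in the wreath product -/
noncomputable def omega (ρ : G →* H) (s : H → G)
    (hs : ∀ g y, ρ ((s y)⁻¹ * g * s ((ρ g)⁻¹ * y)) = 1) (h : U → H) :
    Coprod G (FreeGroup U) →* Wr (Coprod ρ.ker (FreeGroup (U × H))) H :=
  evalAt (emb ρ s hs Coprod.inl)
    (fun u => ⟨fun y => Coprod.inr (FreeGroup.of (u, y)), h u⟩)

section

variable (ρ : G →* H) (s : H → G) (hs : ∀ g y, ρ ((s y)⁻¹ * g * s ((ρ g)⁻¹ * y)) = 1) (h : U → H)

theorem omega_inl (g : G) : omega ρ s hs h (Coprod.inl g) = emb ρ s hs Coprod.inl g := by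
  simp [omega, evalAt]

theorem omega_inr (u : U) : omega ρ s hs h (Coprod.inr (FreeGroup.of u))
    = ⟨fun y => Coprod.inr (FreeGroup.of (u, y)), h u⟩ := by
  simp [omega, evalAt]

theorem hom_ext' {K : Type} [Group K] {f g : Coprod G (FreeGroup U) →* K}
    (h1 : ∀ a, f (Coprod.inl a) = g (Coprod.inl a))
    (h2 : ∀ u, f (Coprod.inr (FreeGroup.of u)) = g (Coprod.inr (FreeGroup.of u))) : f = g := by
  apply Coprod.hom_ext
  · ext a
    exact h1 a
  · apply FreeGroup.ext_hom
    intro u
    exact h2 u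

theorem evalAt_inl' {K : Type} [Group K] (i : G →* K) (h : U → K) (a : G) :
    evalAt i h (Coprod.inl a) = i a := by simp [evalAt]

theorem evalAt_inr' {K : Type} [Group K] (i : G →* K) (h : U → K) (u : U) :
    evalAt i h (Coprod.inr (FreeGroup.of u)) = h u := by simp [evalAt]

theorem wmap_omega (j : ρ.ker →* M) (f : U × H → M) :
    (wmap (evalAt j f)).comp (omega ρ s hs h)
      = evalAt (emb ρ s hs j) (fun u => ⟨fun y => f (u, y), h u⟩) := by
  apply hom_ext'
  · intro a
    rw [MonoidHom.comp_apply, omega_inl, evalAt_inl']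
    ext y
    · simp [wmap, emb, evalAt_inl']
    · simp [wmap, emb]
  · intro u
    rw [MonoidHom.comp_apply, omega_inr, evalAt_inr']
    ext y
    · simp [wmap, evalAt_inr']
    · simp [wmap]

theorem omega_pt (w : Coprod G (FreeGroup U)) : (omega ρ s hs h w).pt = evalAt ρ h w := by
  have : (ptHom).comp (omega ρ s hs h) = evalAt ρ h := by
    apply hom_ext'
    · intro a
      rw [MonoidHom.comp_apply, omega_inl, evalAt_inl']
      rfl
    · intro u
      rw [MonoidHom.comp_apply, omega_inr, evalAt_inr']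
      rfl
  exact DFunLike.congr_fun this w

theorem solve (j : ρ.ker →* M) (f : U × H → M) (w : Coprod G (FreeGroup U))
    (hw : evalAt ρ h w = 1) (hf : ∀ y, evalAt j f ((omega ρ s hs h w).fn y) = 1) :
    evalAt (emb ρ s hs j) (fun u => (⟨fun y => f (u, y), h u⟩ : Wr M H)) w = 1 := by
  rw [← wmap_omega]
  ext y
  · exact hf y
  · change (omega ρ s hs h w).pt = 1
    rw [omega_pt, hw]

/-- exponents of the derived words -/
noncomputable def Om : Coprod G (FreeGroup U) →* Wr (Multiplicative (U × H →₀ ℤ)) H :=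
  (wmap (expHom ρ.ker (U × H))).comp (omega ρ s hs h)

theorem Om_fn (w : Coprod G (FreeGroup U)) (y : H) :
    Multiplicative.toAdd ((Om ρ s hs h w).fn y) = expVec ((omega ρ s hs h w).fn y) := rfl

theorem Om_inl (g : G) (y : H) : (Om ρ s hs h (Coprod.inl g)).fn y = 1 := by
  simp only [Om, MonoidHom.comp_apply, omega_inl]
  simp [wmap, emb, expHom]

theorem Om_inr (u : U) (y : H) : (Om ρ s hs h (Coprod.inr (FreeGroup.of u))).fn y
    = Multiplicative.ofAdd (Finsupp.single (u, y) 1) := by
  simp only [Om, MonoidHom.comp_apply, omega_inr]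
  simp [wmap, expHom]

theorem Om_pt (w : Coprod G (FreeGroup U)) : (Om ρ s hs h w).pt = evalAt ρ h w :=
  omega_pt ρ s hs h w

/-- right translation of exponent vectors -/
noncomputable def shM (U : Type) {H : Type} [Group H] (z : H) :
    Multiplicative (U × H →₀ ℤ) →* Multiplicative (U × H →₀ ℤ) :=
  AddMonoidHom.toMultiplicative
    (Finsupp.mapDomain.addMonoidHom (fun x : U × H => (x.1, x.2 * z)))

/-- augmentation of exponent vectors -/
noncomputable def augM (U H : Type) :
    Multiplicative (U × H →₀ ℤ) →* Multiplicative (U →₀ ℤ) :=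
  AddMonoidHom.toMultiplicative (Finsupp.mapDomain.addMonoidHom (Prod.fst : U × H → U))

theorem exp_shift (w : Coprod G (FreeGroup U)) (y z : H) :
    expVec ((omega ρ s hs h w).fn (y * z))
      = Finsupp.mapDomain (fun x : U × H => (x.1, x.2 * z)) (expVec ((omega ρ s hs h w).fn y)) := by
  have : (shift z).comp (Om ρ s hs h)
      = (wmap (shM U z)).comp (Om ρ s hs h) := by
    apply hom_ext'
    · intro a
      refine Wr.ext (funext fun y => ?_) ?_
      · simp only [MonoidHom.comp_apply]
        change (Om ρ s hs h (Coprod.inl a)).fn (y * z)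
          = shM U z ((Om ρ s hs h (Coprod.inl a)).fn y)
        rw [Om_inl, Om_inl, map_one]
      · rfl
    · intro u
      refine Wr.ext (funext fun y => ?_) ?_
      · simp only [MonoidHom.comp_apply]
        change (Om ρ s hs h (Coprod.inr (FreeGroup.of u))).fn (y * z)
          = shM U z ((Om ρ s hs h (Coprod.inr (FreeGroup.of u))).fn y)
        rw [Om_inr, Om_inr]
        simp [shM]
      · rfl
  have h2 := congrArg Multiplicative.toAdd
    (congrFun (congrArg Wr.fn (DFunLike.congr_fun this w)) y)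
  exact h2

/-- the constant functions -/
noncomputable def cst : Coprod G (FreeGroup U) →* Wr (Multiplicative (U →₀ ℤ)) H where
  toFun w := ⟨fun _ => expHom G U w, evalAt ρ h w⟩
  map_one' := by ext y <;> simp
  map_mul' a b := by ext y <;> simp

theorem exp_aug (w : Coprod G (FreeGroup U)) (y : H) :
    Finsupp.mapDomain (Prod.fst : U × H → U) (expVec ((omega ρ s hs h w).fn y)) = expVec w := by
  have : (wmap (augM U H)).comp (Om ρ s hs h) = cst ρ h := by
    apply hom_ext'
    · intro a
      refine Wr.ext (funext fun y => ?_) ?_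
      · simp only [MonoidHom.comp_apply]
        change augM U H ((Om ρ s hs h (Coprod.inl a)).fn y) = expHom G U (Coprod.inl a)
        rw [Om_inl, map_one]
        simp [expHom]
      · change (Om ρ s hs h (Coprod.inl a)).pt = evalAt ρ h (Coprod.inl a)
        rw [Om_pt]
    · intro u
      refine Wr.ext (funext fun y => ?_) ?_
      · simp only [MonoidHom.comp_apply]
        change augM U H ((Om ρ s hs h (Coprod.inr (FreeGroup.of u))).fn y)
          = expHom G U (Coprod.inr (FreeGroup.of u))
        rw [Om_inr]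
        simp [expHom, augM]
      · change (Om ρ s hs h (Coprod.inr (FreeGroup.of u))).pt
          = evalAt ρ h (Coprod.inr (FreeGroup.of u))
        rw [Om_pt]
  exact congrArg Multiplicative.toAdd
    (congrFun (congrArg Wr.fn (DFunLike.congr_fun this w)) y)

end

/-- the unknowns of the derived system, with the right translation action -/
def UX (U H : Type) : Type := U × H

instance (U : Type) : MulAction H (UX U H) where
  smul h x := (x.1, x.2 * h⁻¹)
  one_smul x := by
    exact Prod.ext rfl (show x.2 * (1 : H)⁻¹ = x.2 by simp)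
  mul_smul a b x := by
    change (x.1, x.2 * (a * b)⁻¹) = (x.1, x.2 * b⁻¹ * a⁻¹)
    simp [mul_assoc]

theorem smul_def' (h : H) (x : UX U H) : h • x = ((x.1, x.2 * h⁻¹) : U × H) := rfl

theorem nonsing_derived (ρ : G →* H) (s : H → G)
    (hs : ∀ g y, ρ ((s y)⁻¹ * g * s ((ρ g)⁻¹ * y)) = 1) (h : U → H) (hH : LocInd H)
    {E : Type} (w : E → Coprod G (FreeGroup U)) (hw : NonsingQ w) :
    NonsingQ (fun p : E × H => (omega ρ s hs h (w p.1)).fn p.2) := by
  set a : E → (UX U H →₀ ℚ) := fun e =>
    (expVec ((omega ρ s hs h (w e)).fn 1)).mapRange (Int.cast : ℤ → ℚ) (by simp) with ha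
  have hfree : ∀ (k : H) (x : UX U H), k • x = x → k = 1 := by
    intro k x hx
    have h2 : x.2 * k⁻¹ = x.2 := congrArg Prod.snd hx
    simpa using h2
  -- the augmentation
  have hind : LinearIndependent ℚ (fun e => LD.qq (⊤ : Subgroup H) (a e)) := by
    have h1 : LinearIndependent ℚ
        (fun e => (expVec (w e)).mapRange (Int.cast : ℤ → ℚ) (by simp)) := by
      refine LinearIndependent.of_comp (Finsupp.lcoeFun (R := ℚ) (α := U) (M := ℚ)) ?_
      exact hw
    set q : LD.Orb (⊤ : Subgroup H) (UX U H) → U :=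
      Quotient.lift (fun x : UX U H => x.1) (by
        rintro x y ⟨k, hk⟩
        exact (congrArg Prod.fst hk).symm) with hq
    refine LinearIndependent.of_comp (Finsupp.lmapDomain ℚ ℚ q) ?_
    have h2 : (⇑(Finsupp.lmapDomain ℚ ℚ q) ∘ fun e => LD.qq (⊤ : Subgroup H) (a e))
        = fun e => (expVec (w e)).mapRange (Int.cast : ℤ → ℚ) (by simp) := by
      funext e
      simp only [Function.comp_apply, LD.qq, Finsupp.lmapDomain_apply]
      rw [← Finsupp.mapDomain_comp]
      have h3 : q ∘ LD.mk (⊤ : Subgroup H) = (Prod.fst : U × H → U) := rfl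
      rw [h3]
      rw [← exp_aug ρ s hs h (w e) 1]
      exact (Finsupp.mapDomain_mapRange (Prod.fst : U × H → U) _ (Int.cast : ℤ → ℚ) (by simp)
        (by intro x y; push_cast; rfl))
    rw [h2]
    exact h1
  have h4 := LD.indep (X := UX U H) hfree hH a hind
  have hinj : Function.Injective (fun p : E × H => ((p.1, p.2⁻¹) : E × H)) := by
    rintro ⟨a, b⟩ ⟨c, d⟩ hh
    simp only [Prod.mk.injEq, inv_inj] at hh
    exact Prod.ext hh.1 hh.2
  have h5 := h4.comp _ hinj
  have h6 := h5.map' (Finsupp.lcoeFun (R := ℚ) (α := UX U H) (M := ℚ)) (by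
    rw [LinearMap.ker_eq_bot]
    exact DFunLike.coe_injective)
  have h7 : (fun (p : E × H) (x : U × H) =>
      (expVec ((omega ρ s hs h (w p.1)).fn p.2) x : ℚ))
      = ⇑(Finsupp.lcoeFun (R := ℚ) (α := UX U H) (M := ℚ)) ∘
        ((fun x : E × H => LD.tr x.2 (a x.1)) ∘ fun p : E × H => (p.1, p.2⁻¹)) := by
    funext p
    change _ = ((LD.tr p.2⁻¹ (a p.1) : UX U H →₀ ℚ) : UX U H → ℚ)
    have h8 : LD.tr p.2⁻¹ (a p.1)
        = (expVec ((omega ρ s hs h (w p.1)).fn p.2)).mapRange (Int.cast : ℤ → ℚ) (by simp) := by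
      have h9 := exp_shift ρ s hs h (w p.1) 1 p.2
      rw [one_mul] at h9
      rw [h9]
      have h10 := Finsupp.mapDomain_mapRange (fun x : U × H => (x.1, x.2 * p.2))
        (expVec ((omega ρ s hs h (w p.1)).fn 1)) (Int.cast : ℤ → ℚ) (by simp)
        (by intro x y; push_cast; rfl)
      rw [← h10]
      simp only [LD.tr, Finsupp.lmapDomain_apply, ha]
      congr 1
      funext x
      change (x.1, x.2 * (p.2⁻¹)⁻¹) = (x.1, x.2 * p.2)
      rw [inv_inv]
    rw [h8]
    funext x
    exact (Finsupp.mapRange_apply (hf := by simp)).symm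
  change LinearIndependent ℚ (fun (p : E × H) (x : U × H) =>
      (expVec ((omega ρ s hs h (w p.1)).fn p.2) x : ℚ))
  rw [h7]
  exact h6

end TW

end Vale.Agent.P174
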