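import Vale.Agent.P174.Defs

/-!
# P174: the wreath product construction

`π : G → P` is a homomorphism and `q : Fin n → P`.  The group `G * F(n)` is mapped to the regular
wreath product of `(ker π) * F(Fin n × P)` by `P`.
-/

namespace Vale.Agent.P174

universe u v

namespace Wreath

open Monoid.Coprod

variable {G : Type u} [Group G] {P : Type v} [Group P] (π : G →* P) {n : ℕ} (q : Fin n → P)

/-- representative of the right coset of `π.range` containing `s` -/
noncomputable def rep (s : P) : P :=
  Quotient.out (Quotient.mk (QuotientGroup.rightRel π.range) s)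

lemma rep_spec (s : P) : s * (rep π s)⁻¹ ∈ π.range := by
  have h : (QuotientGroup.rightRel π.range) (rep π s) s :=
    Quotient.exact (Quotient.out_eq (Quotient.mk (QuotientGroup.rightRel π.range) s))
  exact QuotientGroup.rightRel_apply.1 h

lemma rep_mul (g : G) (s : P) : rep π ((π g)⁻¹ * s) = rep π s := by
  have h : (Quotient.mk (QuotientGroup.rightRel π.range) ((π g)⁻¹ * s))
      = Quotient.mk (QuotientGroup.rightRel π.range) s := by
    apply Quotient.sound
    refine QuotientGroup.rightRel_apply.2 ?_
    refine ⟨g, ?_⟩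
    group
  unfold rep
  rw [h]

/-- a lift of `s * (rep s)⁻¹` -/
noncomputable def tau (s : P) : G := (rep_spec π s).choose

lemma tau_spec (s : P) : π (tau π s) = s * (rep π s)⁻¹ := (rep_spec π s).choose_spec

/-- the cocycle -/
noncomputable def coc (g : G) (s : P) : G := (tau π s)⁻¹ * g * tau π ((π g)⁻¹ * s)

lemma coc_mem (g : G) (s : P) : coc π g s ∈ π.ker := by
  rw [MonoidHom.mem_ker]
  unfold coc
  rw [map_mul, map_mul, map_inv, tau_spec, tau_spec, rep_mul]
  group

lemma coc_mul (g h : G) (s : P) : coc π (g * h) s = coc π g s * coc π h ((π g)⁻¹ * s) := by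
  have e : (π (g * h))⁻¹ * s = (π h)⁻¹ * ((π g)⁻¹ * s) := by
    rw [map_mul]; group
  unfold coc
  rw [e]
  group

lemma coc_one (s : P) : coc π 1 s = 1 := by
  unfold coc
  simp

/-- the coefficient group and unknowns of the derived system -/
abbrev M (n : ℕ) : Type (max u v) := Monoid.Coprod π.ker (FreeGroup (Fin n × P))

/-- embedding of `G` -/
noncomputable def theta (n : ℕ) : G →* RegularWreathProduct (M π n) P where
  toFun g := ⟨fun s => inl ⟨coc π g s, coc_mem π g s⟩, π g⟩
  map_one' := by
    ext1
    · funext s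
      have : (⟨coc π 1 s, coc_mem π 1 s⟩ : π.ker) = 1 := Subtype.ext (coc_one π s)
      simp [this]
    · simp
  map_mul' g h := by
    ext1
    · funext s
      have : (⟨coc π (g * h) s, coc_mem π (g * h) s⟩ : π.ker)
          = ⟨coc π g s, coc_mem π g s⟩ * ⟨coc π h ((π g)⁻¹ * s), coc_mem π h _⟩ :=
        Subtype.ext (coc_mul π g h s)
      simp only [this, map_mul, RegularWreathProduct.mul_left, Pi.mul_apply]
    · simp

/-- the homomorphism from `G * F(n)` to the wreath product -/
noncomputable def E : Monoid.Coprod G (FreeGroup (Fin n)) →* RegularWreathProduct (M π n) P :=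
  Monoid.Coprod.lift (theta π n)
    (FreeGroup.lift fun j => ⟨fun s => inr (FreeGroup.of (j, s)), q j⟩)

lemma E_inl (g : G) : E π q (inl g) = theta π n g := by simp [E]

lemma E_inr (j : Fin n) :
    E π q (inr (FreeGroup.of j)) = ⟨fun s => inr (FreeGroup.of (j, s)), q j⟩ := by simp [E]

lemma E_right (v : Monoid.Coprod G (FreeGroup (Fin n))) :
    (E π q v).right = Monoid.Coprod.lift π (FreeGroup.lift q) v := by
  have : (RegularWreathProduct.rightHom).comp (E π q)
      = Monoid.Coprod.lift π (FreeGroup.lift q) := by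
    apply Monoid.Coprod.hom_ext
    · ext g
      simp [E_inl, theta]
    · ext j
      simp [E_inr]
  exact DFunLike.congr_fun this v

/-- map of wreath products induced by a homomorphism of the bases -/
def mapW {A : Type*} {B : Type*} [Group A] [Group B] (ρ : A →* B) :
    RegularWreathProduct A P →* RegularWreathProduct B P where
  toFun x := ⟨fun s => ρ (x.left s), x.right⟩
  map_one' := by ext1 <;> simp [funext_iff]
  map_mul' x y := by
    ext1
    · funext s; simp
    · simp

/-- the derived system -/
noncomputable def derived {m : ℕ} (w : Fin m → Monoid.Coprod G (FreeGroup (Fin n))) : Fin m × P → M π n :=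
  fun k => (E π q (w k.1)).left k.2

theorem sol_of_derived {m : ℕ} (w : Fin m → Monoid.Coprod G (FreeGroup (Fin n)))
    (hq : ∀ i, Monoid.Coprod.lift π (FreeGroup.lift q) (w i) = 1)
    (hR : Sol (Set.range (derived π q w))) : Sol (Set.range w) := by
  intro g hg
  set R := Set.range (derived π q w) with hRdef
  let ρ : M π n →* (M π n) ⧸ Subgroup.normalClosure R := QuotientGroup.mk' _
  let E' := (mapW (P := P) ρ).comp (E π q)
  have hker : Subgroup.normalClosure (Set.range w) ≤ E'.ker := by
    apply Subgroup.normalClosure_le_normal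
    rintro _ ⟨i, rfl⟩
    show E' (w i) = 1
    ext1
    · funext s
      show ρ ((E π q (w i)).left s) = 1
      rw [QuotientGroup.mk'_apply, QuotientGroup.eq_one_iff]
      exact Subgroup.subset_normalClosure ⟨(i, s), rfl⟩
    · show (E π q (w i)).right = 1
      rw [E_right]
      exact hq i
  have h1 : E' (inl g) = 1 := hker hg
  have h2 : π g = 1 := by
    have := congrArg RegularWreathProduct.right h1
    simpa [E', mapW, E_inl, theta] using this
  have h3 : ρ (inl ⟨coc π g 1, coc_mem π g 1⟩) = 1 := by
    have := congrFun (congrArg RegularWreathProduct.left h1) 1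
    simpa [E', mapW, E_inl, theta] using this
  have h4 : (inl ⟨coc π g 1, coc_mem π g 1⟩ : M π n) ∈ Subgroup.normalClosure R := by
    rwa [QuotientGroup.mk'_apply, QuotientGroup.eq_one_iff] at h3
  have h5 := hR _ h4
  have h6 : coc π g 1 = 1 := congrArg Subtype.val h5
  unfold coc at h6
  rw [h2] at h6
  have h7 : (1 : P)⁻¹ * 1 = 1 := by simp
  rw [h7] at h6
  have h8 : g = tau π 1 * ((tau π 1)⁻¹ * g * tau π 1) * (tau π 1)⁻¹ := by group
  rw [h8, h6]
  simp

/-- right translation of the second coordinate -/
def tr (s : P) (x : Fin n × P) : Fin n × P := (x.1, x.2 * s)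

lemma mapDomain_tr_tr (a s : P) (f : Fin n × P →₀ ℤ) :
    Finsupp.mapDomain (tr s) (Finsupp.mapDomain (tr a) f) = Finsupp.mapDomain (tr (a * s)) f := by
  rw [← Finsupp.mapDomain_comp]
  congr 1
  funext x
  simp [tr, mul_assoc]

/-- the derived exponent vector -/
noncomputable def D (v : Monoid.Coprod G (FreeGroup (Fin n))) (s : P) : Fin n × P →₀ ℤ :=
  expVec ((E π q v).left s)

lemma D_mul (v v' : Monoid.Coprod G (FreeGroup (Fin n))) (s : P) :
    D π q (v * v') s = D π q v s + D π q v' ((E π q v).right⁻¹ * s) := by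
  simp [D]

lemma D_inv (v : Monoid.Coprod G (FreeGroup (Fin n))) (s : P) :
    D π q v⁻¹ s = - D π q v ((E π q v).right * s) := by
  simp [D]

lemma D_inl (g : G) (s : P) : D π q (inl g) s = 0 := by
  simp [D, E_inl, theta]

lemma D_inr (j : Fin n) (s : P) : D π q (inr (FreeGroup.of j)) s = Finsupp.single (j, s) 1 := by
  simp [D, E_inr]

lemma D_translate (v : Monoid.Coprod G (FreeGroup (Fin n))) :
    ∀ s : P, D π q v s = Finsupp.mapDomain (tr s) (D π q v 1) := by
  have hmul : ∀ a b : Monoid.Coprod G (FreeGroup (Fin n)),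
      (∀ s : P, D π q a s = Finsupp.mapDomain (tr s) (D π q a 1)) →
      (∀ s : P, D π q b s = Finsupp.mapDomain (tr s) (D π q b 1)) →
      (∀ s : P, D π q (a * b) s = Finsupp.mapDomain (tr s) (D π q (a * b) 1)) := by
    intro a b ha hb s
    rw [D_mul, D_mul, Finsupp.mapDomain_add, ← ha s, hb ((E π q a).right⁻¹ * 1), mapDomain_tr_tr,
      hb ((E π q a).right⁻¹ * s), mul_one]
  have hinv : ∀ a : Monoid.Coprod G (FreeGroup (Fin n)),
      (∀ s : P, D π q a s = Finsupp.mapDomain (tr s) (D π q a 1)) →
      (∀ s : P, D π q a⁻¹ s = Finsupp.mapDomain (tr s) (D π q a⁻¹ 1)) := by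
    intro a ha s
    rw [D_inv, D_inv, ha ((E π q a).right * s), ha ((E π q a).right * 1), mul_one]
    have hneg : ∀ f : Fin n × P →₀ ℤ,
        Finsupp.mapDomain (tr s) (-f) = - Finsupp.mapDomain (tr s) f := by
      intro f
      exact (Finsupp.mapDomain.addMonoidHom (M := ℤ) (tr (n := n) s)).map_neg f
    rw [hneg, mapDomain_tr_tr]
  have hone : ∀ s : P, D π q 1 s = Finsupp.mapDomain (tr s) (D π q 1 1) := by
    intro s
    simp [D]
  induction v using Monoid.Coprod.induction_on with
  | inl g => intro s; simp [D_inl]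
  | inr x =>
    induction x using FreeGroup.induction_on with
    | C1 => rw [map_one]; exact hone
    | of j =>
      intro s
      have h1 := D_inr π q j s
      have h2 := D_inr π q j (1 : P)
      rw [h1, h2, Finsupp.mapDomain_single]
      simp [tr]
    | inv_of j hj =>
      rw [map_inv]
      exact hinv _ hj
    | mul x y hx hy =>
      rw [map_mul]
      exact hmul _ _ hx hy
  | mul x y hx hy => exact hmul x y hx hy

lemma D_aug (v : Monoid.Coprod G (FreeGroup (Fin n))) :
    ∀ s : P, Finsupp.mapDomain (Prod.fst : Fin n × P → Fin n) (D π q v s) = expVec v := by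
  have hmul : ∀ a b : Monoid.Coprod G (FreeGroup (Fin n)),
      (∀ s : P, Finsupp.mapDomain (Prod.fst : Fin n × P → Fin n) (D π q a s) = expVec a) →
      (∀ s : P, Finsupp.mapDomain (Prod.fst : Fin n × P → Fin n) (D π q b s) = expVec b) →
      (∀ s : P, Finsupp.mapDomain (Prod.fst : Fin n × P → Fin n) (D π q (a * b) s)
        = expVec (a * b)) := by
    intro a b ha hb s
    rw [D_mul, Finsupp.mapDomain_add, ha, hb, expVec_mul]
  have hinv : ∀ a : Monoid.Coprod G (FreeGroup (Fin n)),
      (∀ s : P, Finsupp.mapDomain (Prod.fst : Fin n × P → Fin n) (D π q a s) = expVec a) →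
      (∀ s : P, Finsupp.mapDomain (Prod.fst : Fin n × P → Fin n) (D π q a⁻¹ s)
        = expVec a⁻¹) := by
    intro a ha s
    rw [D_inv, expVec_inv, ← ha ((E π q a).right * s)]
    exact (Finsupp.mapDomain.addMonoidHom (M := ℤ) (Prod.fst : Fin n × P → Fin n)).map_neg _
  induction v using Monoid.Coprod.induction_on with
  | inl g => intro s; simp [D_inl]
  | inr x =>
    induction x using FreeGroup.induction_on with
    | C1 => intro s; simp [D]
    | of j =>
      intro s
      have h1 := D_inr π q j s
      rw [h1, Finsupp.mapDomain_single]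
      simp
    | inv_of j hj =>
      rw [map_inv]
      exact hinv _ hj
    | mul x y hx hy =>
      rw [map_mul]
      exact hmul _ _ hx hy
  | mul x y hx hy => exact hmul x y hx hy

end Wreath

end Vale.Agent.P174
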